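import Vale.Agent.P043.Gadget.Roles

/-!
P043 gadgets: the three kinds of role lists (two-point equality, binary slope, conditional
two-point equality) and what it means that they hold.
-/

namespace Vale.Agent.P043.Gadget

variable {Γ : Type*} [AddCommGroup Γ] [Fintype Γ] {K : AddSubgroup Γ}

/-- `φ ∘ k` increases by `e` along `w`. -/
def Step {n : ℕ} (φ : K →+ ZMod n) (w : (ℤ × ℤ) × Γ) (e : ZMod n)
    (k : (ℤ × ℤ) × Γ → K) : Prop :=
  ∀ g, φ (k (g + w)) = φ (k g) + e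

/-- Increment of `φ ∘ k` along `w`. -/
def incr {n : ℕ} (φ : K →+ ZMod n) (w : (ℤ × ℤ) × Γ) (k : (ℤ × ℤ) × Γ → K)
    (g : (ℤ × ℤ) × Γ) : ZMod n :=
  φ (k (g + w)) - φ (k g)

/-- The increment of `χ ∘ k` along `s` is zero or one, and constant along `s`. -/
def IsBit {q : ℕ} (χ : K →+ ZMod q) (s : (ℤ × ℤ) × Γ) (k : (ℤ × ℤ) × Γ → K) : Prop :=
  ∀ g, (incr χ s k g = 0 ∨ incr χ s k g = 1) ∧ incr χ s k (g + s) = incr χ s k g

/-- Shift a point by a fibre element. -/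
theorem map_shift {n : ℕ} (φ : K →+ ZMod n) {k : (ℤ × ℤ) × Γ → K} (hk : Equivariant k)
    (g w : (ℤ × ℤ) × Γ) (κ : K) : φ (k (g + inj κ + w)) = φ (k (g + w)) + φ κ := by
  rw [show g + inj κ + w = g + w + inj κ by abel, hk, map_add]

theorem incr_shift {n : ℕ} (φ : K →+ ZMod n) {k : (ℤ × ℤ) × Γ → K} (hk : Equivariant k)
    (g w : (ℤ × ℤ) × Γ) (κ : K) : incr φ w k (g + inj κ) = incr φ w k g := by
  simp only [incr]
  rw [map_shift φ hk, hk, map_add]
  ring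

omit [Fintype Γ] in
theorem Step.neg {n : ℕ} {φ : K →+ ZMod n} {w : (ℤ × ℤ) × Γ} {e : ZMod n}
    {k : (ℤ × ℤ) × Γ → K} (h : Step φ w e k) : Step φ (-w) (-e) k := by
  intro g
  have h1 := h (g + -w)
  rw [neg_add_cancel_right] at h1
  rw [h1]; ring

omit [Fintype Γ] in
theorem Step.add {n : ℕ} {φ : K →+ ZMod n} {w w' : (ℤ × ℤ) × Γ} {e e' : ZMod n}
    {k : (ℤ × ℤ) × Γ → K} (h : Step φ w e k) (h' : Step φ w' e' k) :
    Step φ (w + w') (e + e') k := by
  intro g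
  rw [← add_assoc, h' (g + w), h g, add_assoc]

theorem exists_unique_fin_two {p : Fin 2 → Prop} :
    (∃! i, p i) ↔ ((p 0 ∧ ¬ p 1) ∨ (¬ p 0 ∧ p 1)) := by
  constructor
  · rintro ⟨i, hi, hu⟩
    fin_cases i
    · exact Or.inl ⟨hi, fun h => absurd (hu 1 h) (by decide)⟩
    · exact Or.inr ⟨fun h => absurd (hu 0 h) (by decide), hi⟩
  · rintro (⟨h0, h1⟩ | ⟨h0, h1⟩)
    · exact ⟨0, h0, fun j hj => by fin_cases j <;> [rfl; exact absurd hj h1]⟩
    · exact ⟨1, h1, fun j hj => by fin_cases j <;> [exact absurd hj h0; rfl]⟩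

/-! ### Two-point equality -/

/-- Roles of `Step φ w e`. -/
def stepRoles {n : ℕ} (φ : K →+ ZMod n) (w : (ℤ × ℤ) × Γ) (e : ZMod n)
    (hw : ∀ κ : K, w ≠ inj κ) : Roles Γ K where
  n := 2
  w := ![0, w]
  T := ![{κ | φ κ ≠ 0}, {κ | φ κ = e}]
  sep := by
    intro i j κ h
    fin_cases i <;> fin_cases j <;> simp at h ⊢
    · exact hw (-κ) (by rw [inj_neg]; exact eq_neg_of_add_eq_zero_left h.symm)
    · exact hw κ h

theorem holds_stepRoles {n : ℕ} (φ : K →+ ZMod n) (hφ : Function.Surjective φ)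
    (w : (ℤ × ℤ) × Γ) (e : ZMod n) (hw : ∀ κ : K, w ≠ inj κ) {k : (ℤ × ℤ) × Γ → K}
    (hk : Equivariant k) : Holds (stepRoles φ w e hw) k ↔ Step φ w e k := by
  constructor
  · intro h g
    obtain ⟨κ, hκ⟩ := hφ (-φ (k g))
    have h1 := exists_unique_fin_two.mp (h (g + inj κ))
    simp [stepRoles, map_shift φ hk, hk g, hκ] at h1
    linear_combination h1
  · intro h g
    apply exists_unique_fin_two.mpr
    by_cases h0 : φ (k g) = 0 <;> simp [stepRoles, h g, h0]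

/-! ### Binary slope -/

/-- Roles of `IsBit χ s`. -/
def bitRoles {q : ℕ} (χ : K →+ ZMod q) (s : (ℤ × ℤ) × Γ) (hs : ∀ κ : K, s ≠ inj κ)
    (hs2 : ∀ κ : K, s + s ≠ inj κ) : Roles Γ K where
  n := 3
  w := ![0, s, -s]
  T := ![{κ | χ κ ≠ 0 ∧ χ κ ≠ 1}, {κ | χ κ = 1}, {κ | χ κ = 0}]
  sep := by
    intro i j κ h
    fin_cases i <;> fin_cases j <;> simp at h ⊢
    · have e := sub_eq_zero.mpr h
      exact hs (-κ) (sub_eq_zero.mp (neg_eq_zero.mp (by rw [← e, inj_neg]; abel)))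
    · have e := sub_eq_zero.mpr h
      exact hs κ (sub_eq_zero.mp (by rw [← e]; abel))
    · exact hs κ h
    · have e := sub_eq_zero.mpr h
      exact hs2 κ (sub_eq_zero.mp (by rw [← e]; abel))
    · have e := sub_eq_zero.mpr h
      exact hs (-κ) (sub_eq_zero.mp (neg_eq_zero.mp (by rw [← e, inj_neg]; abel)))
    · have e := sub_eq_zero.mpr h
      exact hs2 (-κ) (sub_eq_zero.mp (neg_eq_zero.mp (by rw [← e, inj_neg]; abel)))

theorem exists_unique_fin_three {p : Fin 3 → Prop} :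
    (∃! i, p i) ↔ ((p 0 ∧ ¬ p 1 ∧ ¬ p 2) ∨ (¬ p 0 ∧ p 1 ∧ ¬ p 2) ∨ (¬ p 0 ∧ ¬ p 1 ∧ p 2)) := by
  constructor
  · rintro ⟨i, hi, hu⟩
    fin_cases i
    · exact Or.inl ⟨hi, fun h => absurd (hu 1 h) (by decide), fun h => absurd (hu 2 h) (by decide)⟩
    · exact Or.inr (Or.inl ⟨fun h => absurd (hu 0 h) (by decide), hi,
        fun h => absurd (hu 2 h) (by decide)⟩)
    · exact Or.inr (Or.inr ⟨fun h => absurd (hu 0 h) (by decide),
        fun h => absurd (hu 1 h) (by decide), hi⟩)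
  · rintro (⟨h0, h1, h2⟩ | ⟨h0, h1, h2⟩ | ⟨h0, h1, h2⟩)
    · exact ⟨0, h0, fun j hj => by fin_cases j <;> first | rfl | contradiction⟩
    · exact ⟨1, h1, fun j hj => by fin_cases j <;> first | rfl | contradiction⟩
    · exact ⟨2, h2, fun j hj => by fin_cases j <;> first | rfl | contradiction⟩

theorem holds_bitRoles {q : ℕ} (hq : 3 ≤ q) (χ : K →+ ZMod q) (hχ : Function.Surjective χ)
    (s : (ℤ × ℤ) × Γ) (hs : ∀ κ : K, s ≠ inj κ) (hs2 : ∀ κ : K, s + s ≠ inj κ)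
    {k : (ℤ × ℤ) × Γ → K} (hk : Equivariant k) :
    Holds (bitRoles χ s hs hs2) k ↔ IsBit χ s k := by
  have : Fact (1 < q) := ⟨by omega⟩
  have hne : (1 : ZMod q) + 1 ≠ 0 := by
    intro h
    have : ((2 : ℕ) : ZMod q) = 0 := by rw [Nat.cast_two, ← h]; norm_num
    rw [ZMod.natCast_eq_zero_iff] at this
    exact absurd (Nat.le_of_dvd (by norm_num) this) (by omega)
  have h01 : (0 : ZMod q) ≠ 1 := zero_ne_one
  constructor
  · intro h
    have key : ∀ g, (incr χ s k g = 0 ∧ incr χ (-s) k g = 0) ∨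
        (incr χ s k g = 1 ∧ incr χ (-s) k g = -1) := by
      intro g
      obtain ⟨a, ha⟩ := hχ (-χ (k g))
      obtain ⟨b, hb⟩ := hχ (1 - χ (k g))
      have h0 := exists_unique_fin_three.mp (h (g + inj a))
      have h1 := exists_unique_fin_three.mp (h (g + inj b))
      simp [bitRoles, map_shift χ hk, hk g, ha, hb] at h0 h1
      simp only [incr]
      grind
    intro g
    refine ⟨(key g).imp (·.1) (·.1), ?_⟩
    have hback : incr χ (-s) k (g + s) = -incr χ s k g := by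
      simp only [incr, add_neg_cancel_right]; ring
    rcases key (g + s) with ⟨e1, e2⟩ | ⟨e1, e2⟩ <;> rw [hback] at e2 <;> rw [e1]
    · exact (neg_eq_zero.mp e2).symm
    · exact (neg_inj.mp e2).symm
  · intro h g
    apply exists_unique_fin_three.mpr
    obtain ⟨hv, -⟩ := h g
    have hb := (h (g + -s)).2
    rw [neg_add_cancel_right] at hb
    have hb' : χ (k (g + -s)) = χ (k g) - incr χ s k g := by
      rw [hb]; simp only [incr, neg_add_cancel_right]; ring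
    have hf : χ (k (g + s)) = χ (k g) + incr χ s k g := by simp only [incr]; ring
    simp [bitRoles, hb', hf]
    rcases hv with hv | hv <;> rw [hv] <;> grind

/-! ### Conditional two-point equality -/

/-- Roles of: if the slope of `χ` is `v` then `φ` increases by `e` along `δ`. -/
def condRoles {n q : ℕ} (χ : K →+ ZMod q) (φ : K →+ ZMod n) (v : Bool) (δ s : (ℤ × ℤ) × Γ)
    (e : ZMod n) (h1 : ∀ κ : K, δ ≠ inj κ) (h2 : ∀ κ : K, s ≠ inj κ)
    (h3 : ∀ κ : K, δ ≠ s + inj κ) (h4 : ∀ κ : K, δ ≠ -s + inj κ)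
    (h5 : ∀ κ : K, δ ≠ s + s + inj κ) (h6 : ∀ κ : K, δ ≠ -(s + s) + inj κ) : Roles Γ K where
  n := 4
  w := ![0, δ, δ + bif v then s else -s, bif v then -s else s]
  T := ![{κ | (χ κ = 0 ∧ φ κ ≠ 0) ∨ (χ κ ≠ 0 ∧ χ κ ≠ 1)}, {κ | χ κ = 1 ∧ φ κ ≠ e},
    {κ | χ κ = (bif v then 1 else 0) ∧ φ κ = e}, {κ | χ κ = (bif v then 0 else 1) ∧ φ κ = 0}]
  sep := by
    intro i j κ h
    cases v <;> fin_cases i <;> fin_cases j <;> simp at h ⊢
    all_goals have e0 := sub_eq_zero.mpr h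
    all_goals first
      | exact h1 κ h
      | exact h2 κ h
      | exact h3 κ h
      | exact h4 κ h
      | exact h5 κ h
      | exact h6 κ h
      | (refine h1 κ (sub_eq_zero.mp ?_); rw [← e0]; abel1)
      | (refine h1 (-κ) (sub_eq_zero.mp (neg_eq_zero.mp ?_)); rw [← e0, inj_neg]; abel1)
      | (refine h2 κ (sub_eq_zero.mp ?_); rw [← e0]; abel1)
      | (refine h2 (-κ) (sub_eq_zero.mp (neg_eq_zero.mp ?_)); rw [← e0, inj_neg]; abel1)
      | (refine h3 κ (sub_eq_zero.mp ?_); rw [← e0]; abel1)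
      | (refine h3 (-κ) (sub_eq_zero.mp (neg_eq_zero.mp ?_)); rw [← e0, inj_neg]; abel1)
      | (refine h4 κ (sub_eq_zero.mp ?_); rw [← e0]; abel1)
      | (refine h4 (-κ) (sub_eq_zero.mp (neg_eq_zero.mp ?_)); rw [← e0, inj_neg]; abel1)
      | (refine h5 κ (sub_eq_zero.mp ?_); rw [← e0]; abel1)
      | (refine h5 (-κ) (sub_eq_zero.mp (neg_eq_zero.mp ?_)); rw [← e0, inj_neg]; abel1)
      | (refine h6 κ (sub_eq_zero.mp ?_); rw [← e0]; abel1)
      | (refine h6 (-κ) (sub_eq_zero.mp (neg_eq_zero.mp ?_)); rw [← e0, inj_neg]; abel1)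

theorem exists_unique_fin_four {p : Fin 4 → Prop} :
    (∃! i, p i) ↔ ((p 0 ∧ ¬ p 1 ∧ ¬ p 2 ∧ ¬ p 3) ∨ (¬ p 0 ∧ p 1 ∧ ¬ p 2 ∧ ¬ p 3) ∨
      (¬ p 0 ∧ ¬ p 1 ∧ p 2 ∧ ¬ p 3) ∨ (¬ p 0 ∧ ¬ p 1 ∧ ¬ p 2 ∧ p 3)) := by
  constructor
  · rintro ⟨i, hi, hu⟩
    have hn : ∀ j, j ≠ i → ¬ p j := fun j hj h => hj (hu j h)
    fin_cases i
    · exact Or.inl ⟨hi, hn 1 (by decide), hn 2 (by decide), hn 3 (by decide)⟩
    · exact Or.inr (Or.inl ⟨hn 0 (by decide), hi, hn 2 (by decide), hn 3 (by decide)⟩)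
    · exact Or.inr (Or.inr (Or.inl ⟨hn 0 (by decide), hn 1 (by decide), hi, hn 3 (by decide)⟩))
    · exact Or.inr (Or.inr (Or.inr ⟨hn 0 (by decide), hn 1 (by decide), hn 2 (by decide), hi⟩))
  · rintro (⟨a, b, c, d⟩ | ⟨a, b, c, d⟩ | ⟨a, b, c, d⟩ | ⟨a, b, c, d⟩)
    · exact ⟨0, a, fun j hj => by fin_cases j <;> first | rfl | contradiction⟩
    · exact ⟨1, b, fun j hj => by fin_cases j <;> first | rfl | contradiction⟩
    · exact ⟨2, c, fun j hj => by fin_cases j <;> first | rfl | contradiction⟩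
    · exact ⟨3, d, fun j hj => by fin_cases j <;> first | rfl | contradiction⟩

/-- The slope condition of a literal. -/
def bitVal {q : ℕ} (v : Bool) : ZMod q := bif v then 1 else 0

/-- Exactly one of four. -/
def OneOfFour (a b c d : Prop) : Prop :=
  (a ∧ ¬ b ∧ ¬ c ∧ ¬ d) ∨ (¬ a ∧ b ∧ ¬ c ∧ ¬ d) ∨ (¬ a ∧ ¬ b ∧ c ∧ ¬ d) ∨ (¬ a ∧ ¬ b ∧ ¬ c ∧ d)

theorem cond_true_arith {q n : ℕ} (z c : ZMod q) (y D e : ZMod n) (hc : c = 0 ∨ c = 1)
    (h01 : (0 : ZMod q) ≠ 1) (h : c = 1 → D = e) :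
    OneOfFour ((z = 0 ∧ y ≠ 0) ∨ (z ≠ 0 ∧ z ≠ 1)) (z = 1 ∧ y + D ≠ e)
      (z + c = 1 ∧ y + D = e) (z - c = 0 ∧ y = 0) := by
  rcases hc with rfl | rfl
  · by_cases z0 : z = 0
    · subst z0
      by_cases y0 : y = 0 <;> simp [OneOfFour, y0, h01]
    · by_cases z1 : z = 1
      · subst z1
        by_cases y1 : y + D = e <;> simp [OneOfFour, y1, h01.symm]
      · simp [OneOfFour, z0, z1]
  · obtain rfl := h rfl
    by_cases z0 : z = 0
    · subst z0
      by_cases y0 : y = 0 <;> simp [OneOfFour, y0, h01, h01.symm]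
    · by_cases z1 : z = 1
      · subst z1
        by_cases y0 : y = 0 <;> simp [OneOfFour, y0, h01.symm]
      · simp [OneOfFour, z0, z1, sub_eq_zero]

theorem cond_false_arith {q n : ℕ} (z c : ZMod q) (y D e : ZMod n) (hc : c = 0 ∨ c = 1)
    (h01 : (0 : ZMod q) ≠ 1) (h : c = 0 → D = e) :
    OneOfFour ((z = 0 ∧ y ≠ 0) ∨ (z ≠ 0 ∧ z ≠ 1)) (z = 1 ∧ y + D ≠ e)
      (z - c = 0 ∧ y + D = e) (z + c = 1 ∧ y = 0) := by
  rcases hc with rfl | rfl
  · obtain rfl := h rfl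
    by_cases z0 : z = 0
    · subst z0
      by_cases y0 : y = 0 <;> simp [OneOfFour, y0, h01]
    · by_cases z1 : z = 1
      · subst z1
        by_cases y0 : y = 0 <;> simp [OneOfFour, y0, h01.symm]
      · simp [OneOfFour, z0, z1]
  · by_cases z0 : z = 0
    · subst z0
      by_cases y0 : y = 0 <;> simp [OneOfFour, y0, h01, h01.symm]
    · by_cases z1 : z = 1
      · subst z1
        by_cases y1 : y + D = e <;> simp [OneOfFour, y1, h01.symm]
      · simp [OneOfFour, z0, z1, sub_eq_zero]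

theorem holds_condRoles {n q : ℕ} (hq : 3 ≤ q) (χ : K →+ ZMod q) (φ : K →+ ZMod n)
    (hsurj : ∀ a b, ∃ κ : K, χ κ = a ∧ φ κ = b) (v : Bool) (δ s : (ℤ × ℤ) × Γ) (e : ZMod n)
    (h1 : ∀ κ : K, δ ≠ inj κ) (h2 : ∀ κ : K, s ≠ inj κ)
    (h3 : ∀ κ : K, δ ≠ s + inj κ) (h4 : ∀ κ : K, δ ≠ -s + inj κ)
    (h5 : ∀ κ : K, δ ≠ s + s + inj κ) (h6 : ∀ κ : K, δ ≠ -(s + s) + inj κ)
    {k : (ℤ × ℤ) × Γ → K} (hk : Equivariant k) (hχδ : Step χ δ 0 k) (hφs : Step φ s 0 k)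
    (hbit : IsBit χ s k) :
    Holds (condRoles χ φ v δ s e h1 h2 h3 h4 h5 h6) k ↔
      ∀ g, incr χ s k g = bitVal v → incr φ δ k g = e := by
  have : Fact (1 < q) := ⟨by omega⟩
  have h01 : (0 : ZMod q) ≠ 1 := zero_ne_one
  have hne : (1 : ZMod q) + 1 ≠ 0 := by
    intro h
    have : ((2 : ℕ) : ZMod q) = 0 := by rw [Nat.cast_two, ← h]; norm_num
    rw [ZMod.natCast_eq_zero_iff] at this
    exact absurd (Nat.le_of_dvd (by norm_num) this) (by omega)
  have vals : ∀ g, χ (k (g + δ)) = χ (k g) ∧ φ (k (g + δ)) = φ (k g) + incr φ δ k g ∧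
      χ (k (g + (δ + s))) = χ (k g) + incr χ s k g ∧
      φ (k (g + (δ + s))) = φ (k g) + incr φ δ k g ∧
      χ (k (g + (δ + -s))) = χ (k g) - incr χ s k g ∧
      φ (k (g + (δ + -s))) = φ (k g) + incr φ δ k g ∧
      χ (k (g + s)) = χ (k g) + incr χ s k g ∧ φ (k (g + s)) = φ (k g) ∧
      χ (k (g + -s)) = χ (k g) - incr χ s k g ∧ φ (k (g + -s)) = φ (k g) := by
    intro g
    have a1 : χ (k (g + δ)) = χ (k g) := by rw [hχδ g, add_zero]
    have a2 : φ (k (g + δ)) = φ (k g) + incr φ δ k g := by simp only [incr]; ring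
    have a3 : χ (k (g + s)) = χ (k g) + incr χ s k g := by simp only [incr]; ring
    have a4 : φ (k (g + s)) = φ (k g) := by rw [hφs g, add_zero]
    have a5 : χ (k (g + -s)) = χ (k g) - incr χ s k g := by
      have hb := (hbit (g + -s)).2
      rw [neg_add_cancel_right] at hb
      rw [hb]; simp only [incr, neg_add_cancel_right]; ring
    have a6 : φ (k (g + -s)) = φ (k g) := by
      have := hφs.neg g
      simpa using this
    have b1 : χ (k (g + (δ + s))) = χ (k g) + incr χ s k g := by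
      rw [add_comm δ s, ← add_assoc, hχδ (g + s), add_zero, a3]
    have b2 : φ (k (g + (δ + s))) = φ (k g) + incr φ δ k g := by
      rw [← add_assoc, hφs (g + δ), add_zero, a2]
    have b3 : χ (k (g + (δ + -s))) = χ (k g) - incr χ s k g := by
      rw [add_comm δ (-s), ← add_assoc, hχδ (g + -s), add_zero, a5]
    have b4 : φ (k (g + (δ + -s))) = φ (k g) + incr φ δ k g := by
      rw [← add_assoc]
      have := hφs.neg (g + δ)
      rw [this, a2]; simp
    exact ⟨a1, a2, b1, b2, b3, b4, a3, a4, a5, a6⟩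
  constructor
  · intro h g hg
    obtain ⟨κ, hκ1, hκ2⟩ := hsurj (-χ (k g)) (-φ (k g))
    have hfire := exists_unique_fin_four.mp (h (g + inj κ))
    obtain ⟨a1, a2, a3, a4, a5, a6, a7, a8, a9, a10⟩ := vals (g + inj κ)
    have hz : χ (k (g + inj κ)) = 0 := by rw [hk, map_add, hκ1, add_neg_cancel]
    have hy : φ (k (g + inj κ)) = 0 := by rw [hk, map_add, hκ2, add_neg_cancel]
    rw [incr_shift χ hk, incr_shift φ hk] at *
    cases v <;> simp [bitVal] at hg <;>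
      simp [condRoles, a1, a2, a3, a4, a5, a6, a7, a8, a9, a10, hz, hy, hg] at hfire <;> grind
  · intro h g
    apply exists_unique_fin_four.mpr
    obtain ⟨a1, a2, a3, a4, a5, a6, a7, a8, a9, a10⟩ := vals g
    obtain ⟨hv, -⟩ := hbit g
    have hh := h g
    cases v
    · have := cond_false_arith (χ (k g)) (incr χ s k g) (φ (k g)) (incr φ δ k g) e hv h01
        (fun h0 => hh h0)
      simpa [condRoles, OneOfFour, bitVal, a1, a2, a5, a6, a7, a8] using this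
    · have := cond_true_arith (χ (k g)) (incr χ s k g) (φ (k g)) (incr φ δ k g) e hv h01
        (fun h1' => hh h1')
      simpa [condRoles, OneOfFour, bitVal, a1, a2, a3, a4, a9, a10] using this

end Vale.Agent.P043.Gadget
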