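import Vale.Agent.P043.Gadget.Eqns

/-!
P043 gadgets: a solution of the line system gives a section satisfying the equations.
-/

namespace Vale.Agent.P043.Gadget

variable {L : LineSys}

theorem bitVal_not_two (a : Bool) : (bitVal (!a) : ZMod 2) = bitVal a + 1 := by
  cases a <;> simp [bitVal]
  decide

theorem sub_one_two (a : ZMod 2) : a + 1 + 1 = a := by
  revert a; decide

/-- A quantity on the plane flipped by one basis vector and fixed by the other. -/
theorem parity_form (f : ℤ × ℤ → ZMod 2) (a b : ZMod 2) (h1 : ∀ x, f (x + (1, 0)) = f x + a)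
    (h2 : ∀ x, f (x + (0, 1)) = f x + b) (x : ℤ × ℤ) :
    f x = f 0 + (x.1 : ZMod 2) * a + (x.2 : ZMod 2) * b := by
  have hm : ∀ m : ℤ, f (0, m) = f 0 + (m : ZMod 2) * b := by
    intro m
    induction m using Int.induction_on with
    | zero => simp [show ((0 : ℤ), (0 : ℤ)) = (0 : ℤ × ℤ) from rfl]
    | succ i ih =>
      have := h2 (0, i)
      simp at this ⊢
      rw [this, ih]; push_cast; ring
    | pred i ih =>
      have := h2 (0, -i - 1)
      simp at this ih ⊢
      linear_combination ih - this
  obtain ⟨n, m⟩ := x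
  induction n using Int.induction_on with
  | zero => simpa using hm m
  | succ i ih =>
    have := h1 (i, m)
    simp at this ih ⊢
    rw [this, ih]; ring
  | pred i ih =>
    have := h1 (-i - 1, m)
    simp at this ih ⊢
    linear_combination ih - this

variable (c : ℤ × ℤ → L.B → Bool)

/-- Phase of a marker. -/
noncomputable def phase (w : Fin 2) (x : ℤ × ℤ) : ℤ :=
  (![x.1, x.2] w) + if c 0 (parBit L w) then 1 else 0

theorem phase_move (w d : Fin 2) (x : ℤ × ℤ) :
    phase c w (x + ![(1, 0), (0, 1)] d) = phase c w x + if w = d then 1 else 0 := by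
  fin_cases w <;> fin_cases d <;> simp [phase] <;> ring

theorem phase_two {c : ℤ × ℤ → L.B → Bool} (hc : L.IsSol c) (w : Fin 2) (x : ℤ × ℤ) :
    (bitVal (c x (parBit L w)) : ZMod 2) = (phase c w x : ZMod 2) := by
  obtain ⟨-, hxx, hxy, hyx, hyy, -⟩ := hc
  fin_cases w
  · have := parity_form (fun x => (bitVal (c x L.parX) : ZMod 2)) 1 0
      (fun x => by rw [hxx, bitVal_not_two]) (fun x => by rw [hxy, add_zero]) x
    simp [phase, parBit] at this ⊢
    rw [this]
    rcases Bool.eq_false_or_eq_true (c 0 L.parX) with hb | hb <;> simp [bitVal, hb] <;> ring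
  · have := parity_form (fun x => (bitVal (c x L.parY) : ZMod 2)) 0 1
      (fun x => by rw [hyx, add_zero]) (fun x => by rw [hyy, bitVal_not_two]) x
    simp [phase, parBit] at this ⊢
    rw [this]
    rcases Bool.eq_false_or_eq_true (c 0 L.parY) with hb | hb <;> simp [bitVal, hb] <;> ring

/-- Slopes of a clause coordinate, from a literal that is true. -/
noncomputable def clSlope (x : ℤ × ℤ) (K : Cl L) : ZMod (qC L K) × ZMod (qC L K) :=
  if c x (K.1 0).1 = (K.1 0).2 then (1, 0) else
    if c x (K.1 1).1 = (K.1 1).2 then (0, 1) else (0, 0)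

/-- The section attached to a solution. -/
noncomputable def section' (g : Amb L) : sub L :=
  mk (high g.2.1.1) (high (g.2.1.1 - (phase c 0 g.1 : ZMod 4)) + g.2.1.2.1)
    (high (g.2.1.1 - (phase c 1 g.1 : ZMod 4)) + g.2.1.2.2)
    (fun b => bitVal (c g.1 b) * (g.2.2.1 b).1 + (g.2.2.1 b).2)
    (fun K => (clSlope c g.1 K).1 * (g.2.2.2 K).1 + (clSlope c g.1 K).2 * (g.2.2.2 K).2.1
      + (g.2.2.2 K).2.2)

theorem phi0_section (g : Amb L) : phi L 0 (section' c g) = high g.2.1.1 := by
  rw [section', phi_mk]; rfl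

theorem phi1_section (g : Amb L) : phi L 1 (section' c g)
    = high (g.2.1.1 - (phase c 0 g.1 : ZMod 4)) + g.2.1.2.1 := by
  rw [section', phi_mk]; rfl

theorem phi2_section (g : Amb L) : phi L 2 (section' c g)
    = high (g.2.1.1 - (phase c 1 g.1 : ZMod 4)) + g.2.1.2.2 := by
  rw [section', phi_mk]; rfl

theorem chi_section (b : L.B) (g : Amb L) : chi L b (section' c g)
    = bitVal (c g.1 b) * (g.2.2.1 b).1 + (g.2.2.1 b).2 := rfl

theorem phiC_section (K : Cl L) (g : Amb L) : phiC L K (section' c g)
    = (clSlope c g.1 K).1 * (g.2.2.2 K).1 + (clSlope c g.1 K).2 * (g.2.2.2 K).2.1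
      + (g.2.2.2 K).2.2 := rfl

theorem high_shift (i j : ZMod 4) (hj : ZMod.castHom (by norm_num : 2 ∣ 4) (ZMod 2) j = 0) :
    high (i + j) = high i + high j := high_add_of_even i j hj

theorem section_equivariant : Equivariant (section' c) := by
  intro g κ
  obtain ⟨h1, h2, h3⟩ := mem_sub.mp κ.2
  have e0 : phi L 0 κ = high κ.1.1.1 := rfl
  have e1 : phi L 1 κ = high κ.1.1.1 + κ.1.1.2.1 := rfl
  have e2 : phi L 2 κ = high κ.1.1.1 + κ.1.1.2.2 := rfl
  have hp : ∀ w, phase c w (g + inj κ).1 = phase c w g.1 := by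
    intro w; simp [inj]
  rw [eq_mk (section' c g + κ)]
  conv_lhs => rw [eq_mk (section' c (g + inj κ))]
  congr 1
  · rw [map_add, phi0_section, phi0_section, e0]
    exact high_shift _ _ h1
  · rw [map_add, phi1_section, phi1_section, e1, hp]
    show high (g.2.1.1 + κ.1.1.1 - _) + (g.2.1.2.1 + κ.1.1.2.1) = _
    rw [add_sub_right_comm, high_shift _ _ h1]; abel
  · rw [map_add, phi2_section, phi2_section, e2, hp]
    show high (g.2.1.1 + κ.1.1.1 - _) + (g.2.1.2.2 + κ.1.1.2.2) = _
    rw [add_sub_right_comm, high_shift _ _ h1]; abel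
  · funext b
    rw [map_add, chi_section, chi_section]
    simp [inj, h2 b, chi]
    ring
  · funext K
    rw [map_add, phiC_section, phiC_section]
    simp [inj, (h3 K).1, (h3 K).2, phiC]
    ring

theorem high_step_even : ∀ i : ZMod 4, high (i + 1) + high i = (i.val : ZMod 2) := by
  decide

theorem high_markers : ∀ i p : ZMod 4,
    (high (i + 1) + high (i + 1 - p)) - (high i + high (i - p))
      = ZMod.castHom (by norm_num : 2 ∣ 4) (ZMod 2) p := by
  decide

theorem marker_section {c : ℤ × ℤ → L.B → Bool} (hc : L.IsSol c) (w : Fin 2) (g : Amb L) :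
    incr (psi L w) (uu L) (section' c) g = bitVal (c g.1 (parBit L w)) := by
  rw [phase_two hc]
  have h := high_markers g.2.1.1 (phase c w g.1 : ZMod 4)
  rw [map_intCast] at h
  fin_cases w <;>
    simp [incr, psi, phi0_section, phi1_section, phi2_section, uu] at h ⊢ <;>
    linear_combination h

theorem chi_slope (b : L.B) (g : Amb L) :
    incr (chi L b) (sB L b) (section' c) g = bitVal (c g.1 b) := by
  simp [incr, chi_section, sB, mul_add]

theorem section_good {c : ℤ × ℤ → L.B → Bool} (hc : L.IsSol c) : Good (section' c) := by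
  obtain ⟨hper, -, -, -, -, hcl⟩ := id hc
  refine ⟨?_, ?_, ?_, ?_, ?_, ?_, ?_, ?_, ?_, ?_, ?_⟩
  · intro i d g
    fin_cases i <;> fin_cases d <;>
      simp [phi0_section, phi1_section, phi2_section, tw, uu, phase] <;>
      (congr 1; ring)
  · intro i b g
    fin_cases i <;> simp [phi0_section, phi1_section, phi2_section, sB]
  · intro i K d g
    fin_cases i <;> fin_cases d <;> simp [phi0_section, phi1_section, phi2_section, rC]
  · intro b g
    simp [chi_section, uu]
  · intro b b' hb g
    simp [chi_section, sB, Pi.single_eq_of_ne hb.symm]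
  · intro b K d g
    fin_cases d <;> simp [chi_section, rC]
  · intro b _ g
    simp [chi_section, perV, hper]
  · intro b g
    rw [chi_slope, chi_slope]
    refine ⟨?_, ?_⟩
    · cases c g.1 b <;> simp [bitVal]
    · simp [sB]
  · intro K b g
    simp [phiC_section, sB]
  · intro w v g h
    rw [chi_slope] at h
    rw [marker_section hc]
    revert h
    cases c g.1 (parBit L w) <;> cases v <;> simp [bitVal]
  · intro K i g h
    rw [chi_slope] at h
    have hlit : ¬ c g.1 (K.1 i).1 = (K.1 i).2 := by
      intro e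
      rw [e] at h
      revert h
      cases (K.1 i).2 <;> simp [bitVal]
    obtain ⟨i₀, h₀⟩ := hcl g.1 K.1 K.2
    fin_cases i
    · by_cases h1 : c g.1 (K.1 1).1 = (K.1 1).2 <;>
        simp [incr, phiC_section, edge, edgeVal, rC, clSlope] at hlit ⊢ <;>
        simp [hlit, h1] <;> ring
    · by_cases h1 : c g.1 (K.1 0).1 = (K.1 0).2 <;>
        simp [incr, phiC_section, edge, edgeVal, rC, clSlope] at hlit ⊢ <;>
        simp [hlit, h1] <;> ring
    · fin_cases i₀
      · simp [incr, phiC_section, edge, edgeVal, rC, clSlope] at hlit h₀ ⊢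
        simp [h₀]
      · by_cases h1 : c g.1 (K.1 0).1 = (K.1 0).2 <;>
          simp [incr, phiC_section, edge, edgeVal, rC, clSlope] at hlit h₀ ⊢ <;>
          simp [h₀, h1] <;> ring
      · exact absurd h₀ hlit

end Vale.Agent.P043.Gadget
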