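import Mathlib

/-!
P043 gadgets: one exact equation for a disjunction of literals.

For `t : Fin (k + 1) → Bool` the pattern asks, for every `i`, whether the coordinate `y i` is the
top value shifted by `t i && v i`, and wants the answer `tgt t i`. If the coordinates move by
`t i && c i`, exactly one `t` fits for all positions precisely when some `c i` equals `v i`.
-/

namespace Vale.Agent.P043.Gadget.Cycle

variable {k : ℕ} {q : Fin (k + 1) → ℕ}

/-- The requested answer: the next bit, negated at the end of the cycle. -/
def tgt (t : Fin (k + 1) → Bool) : Fin (k + 1) → Bool :=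
  Fin.snoc (fun i : Fin k => t i.succ) (!t 0)

/-- The pattern of `t`. -/
def Pat (v t : Fin (k + 1) → Bool) (y : ∀ i, ZMod (q i)) : Prop :=
  ∀ i, y i = -1 + (((t i && v i).toNat : ℕ) : ZMod (q i)) ↔ tgt t i = true

/-- A chain of Boolean maps closed by a negation has a unique solution if one map is constant. -/
theorem existsUnique_chain (f : Fin (k + 1) → Bool → Bool) {i₀ : Fin (k + 1)}
    (h : ∀ x, f i₀ x = f i₀ false) : ∃! t : Fin (k + 1) → Bool, ∀ i, f i (t i) = tgt t i := by
  induction k with
  | zero =>
    obtain rfl : i₀ = 0 := Fin.fin_one_eq_zero _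
    refine ⟨fun _ => !f 0 false, fun i => ?_, fun t ht => ?_⟩
    · obtain rfl : i = 0 := Fin.fin_one_eq_zero _
      simp [tgt, Fin.snoc, h]
    · funext i
      obtain rfl : i = 0 := Fin.fin_one_eq_zero _
      have h0 := ht 0
      rw [h] at h0
      simp [tgt, Fin.snoc] at h0
      simp [h0]
  | succ n ih =>
    -- Merge the last two maps.
    let F : Fin (n + 1) → Bool → Bool :=
      Fin.snoc (fun i : Fin n => f i.castSucc.castSucc)
        (fun x => f (Fin.last (n + 1)) (f (Fin.last n).castSucc x))
    have hF : ∃ i : Fin (n + 1), ∀ x, F i x = F i false := by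
      induction i₀ using Fin.lastCases with
      | last =>
        refine ⟨Fin.last n, fun x => ?_⟩
        simp only [F, Fin.snoc_last]
        rw [h, h (f (Fin.last n).castSucc false)]
      | cast i =>
        induction i using Fin.lastCases with
        | last =>
          refine ⟨Fin.last n, fun x => ?_⟩
          simp only [F, Fin.snoc_last, h x]
        | cast j =>
          refine ⟨j.castSucc, fun x => ?_⟩
          simp only [F, Fin.snoc_castSucc, h x]
    obtain ⟨i₁, hi₁⟩ := hF
    obtain ⟨t, ht, huniq⟩ := ih F hi₁
    have hlast := ht (Fin.last n)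
    simp only [F, tgt, Fin.snoc_last] at hlast
    refine ⟨Fin.snoc t (f (Fin.last n).castSucc (t (Fin.last n))), fun i => ?_, fun s hs => ?_⟩
    · induction i using Fin.lastCases with
      | last =>
        rw [tgt, Fin.snoc_last, Fin.snoc_last, ← Fin.castSucc_zero, Fin.snoc_castSucc]
        exact hlast
      | cast i =>
        induction i using Fin.lastCases with
        | last => simp [tgt, Fin.succ_last]
        | cast j =>
          have hj := ht j.castSucc
          simp only [F, tgt, Fin.snoc_castSucc] at hj
          rw [tgt, Fin.snoc_castSucc, Fin.snoc_castSucc, Fin.succ_castSucc, Fin.snoc_castSucc]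
          exact hj
    · have h1 := hs (Fin.last n).castSucc
      have h2 := hs (Fin.last (n + 1))
      simp only [tgt, Fin.snoc_castSucc, Fin.succ_last, Fin.snoc_last] at h1 h2
      have hst : (fun i : Fin (n + 1) => s i.castSucc) = t := by
        refine huniq _ fun i => ?_
        induction i using Fin.lastCases with
        | last =>
          simp only [F, tgt, Fin.snoc_last, h1, h2]
          rfl
        | cast j =>
          have hj := hs j.castSucc.castSucc
          simp only [tgt, Fin.snoc_castSucc] at hj
          simp only [F, tgt, Fin.snoc_castSucc, hj, Fin.succ_castSucc]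
      funext i
      induction i using Fin.lastCases with
      | last => simp [← hst, h1]
      | cast i => simp [← hst]

/-- A true literal gives exactly one pattern at every position. -/
theorem existsUnique_pat (v c : Fin (k + 1) → Bool) (z : ∀ i, ZMod (q i)) {i₀ : Fin (k + 1)}
    (h : c i₀ = v i₀) :
    ∃! t : Fin (k + 1) → Bool,
      Pat v t fun i => z i + (((t i && c i).toNat : ℕ) : ZMod (q i)) := by
  classical
  have hf : ∀ x, decide (z i₀ + (((x && c i₀).toNat : ℕ) : ZMod (q i₀)) =
      -1 + (((x && v i₀).toNat : ℕ) : ZMod (q i₀))) =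
      decide (z i₀ + (((false && c i₀).toNat : ℕ) : ZMod (q i₀)) =
      -1 + (((false && v i₀).toNat : ℕ) : ZMod (q i₀))) := fun x => by
    rw [h]; simp
  have := existsUnique_chain (fun i x => decide (z i + (((x && c i).toNat : ℕ) : ZMod (q i)) =
    -1 + (((x && v i).toNat : ℕ) : ZMod (q i)))) hf
  refine (existsUnique_congr fun t => ?_).1 this
  refine forall_congr' fun i => ?_
  cases tgt t i <;> simp

/-- If all literals are false, some position has no pattern. -/
theorem exists_no_pat (hq : ∀ i, 1 < q i) (v c : Fin (k + 1) → Bool) (h : ∀ i, c i ≠ v i) :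
    ∃ z : ∀ i, ZMod (q i), ∀ t : Fin (k + 1) → Bool,
      ¬ Pat v t fun i => z i + (((t i && c i).toNat : ℕ) : ZMod (q i)) := by
  refine ⟨fun i => -1 + ((v i).toNat : ZMod (q i)) - ((c i).toNat : ZMod (q i)), fun t ht => ?_⟩
  have hid : ∀ i, tgt t i = t i := by
    intro i
    have hi := ht i
    simp only at hi
    have : Fact (1 < q i) := ⟨hq i⟩
    have hne := h i
    cases hti : t i
    · rw [Bool.eq_false_iff]
      intro htg
      rw [htg, hti] at hi
      have he := hi.2 rfl
      cases hv : v i <;> cases hc : c i <;> simp [hv, hc] at he hne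
    · rw [hti] at hi
      exact hi.1 (by simp)
  have hall : ∀ i, t i = t 0 := by
    intro i
    induction i using Fin.induction with
    | zero => rfl
    | succ j ih =>
      have hj := hid j.castSucc
      rw [tgt, Fin.snoc_castSucc] at hj
      rw [hj, ih]
  have hl := hid (Fin.last k)
  rw [tgt, Fin.snoc_last, hall (Fin.last k)] at hl
  cases h0 : t 0 <;> simp [h0] at hl

/-- Exactly one pattern everywhere, if and only if a literal is true. -/
theorem forall_existsUnique_pat_iff (hq : ∀ i, 1 < q i) (v c : Fin (k + 1) → Bool) :
    (∀ z : ∀ i, ZMod (q i), ∃! t : Fin (k + 1) → Bool,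
      Pat v t fun i => z i + (((t i && c i).toNat : ℕ) : ZMod (q i))) ↔ ∃ i, c i = v i := by
  constructor
  · intro h
    by_contra hne
    push Not at hne
    obtain ⟨z, hz⟩ := exists_no_pat hq v c hne
    obtain ⟨t, ht, -⟩ := h z
    exact hz t ht
  · rintro ⟨i, hi⟩ z
    exact existsUnique_pat v c z hi

end Vale.Agent.P043.Gadget.Cycle
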