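import Vale.Agent.P043.Gadget.Group

/-!
P043 gadgets: the equations of a line system and what they say about a section.
-/

namespace Vale.Agent.P043.Gadget

noncomputable section

variable (L : LineSys)

/-- Indices of the equations. -/
inductive Idx where
  | fib
  | twist (i : Fin 3) (d : Fin 2)
  | phiS (i : Fin 3) (b : L.B)
  | phiR (i : Fin 3) (c : Cl L) (d : Fin 2)
  | chiU (b : L.B)
  | chiS (b : L.B) (b' : {x : L.B // x ≠ b})
  | chiR (b : L.B) (c : Cl L) (d : Fin 2)
  | chiPer (b : {x : L.B // L.per x ≠ 0})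
  | bit (b : L.B)
  | clS (c : Cl L) (b : L.B)
  | par (w : Fin 2) (v : Bool)
  | clause (c : Cl L) (i : Fin 3)
  deriving Fintype

/-- Spatial shift of a twist equation. -/
noncomputable def tw (i : Fin 3) (d : Fin 2) : Amb L :=
  ((![(1, 0), (0, 1)] d : ℤ × ℤ), 0) +
    if (i = 1 ∧ d = 0) ∨ (i = 2 ∧ d = 1) then uu L else 0

/-- Spatial period of a bit. -/
def perV (b : L.B) : Amb L := (L.per b, 0)

/-- The parity variable of a marker. -/
def parBit : Fin 2 → L.B := ![L.parX, L.parY]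

/-- The marker coordinate pairs. -/
noncomputable def psi : Fin 2 → (sub L →+ ZMod 2) :=
  ![phi L 0 + phi L 1, phi L 0 + phi L 2]

/-- The three edges of a clause. -/
noncomputable def edge (c : Cl L) : Fin 3 → Amb L :=
  ![rC L c 0, rC L c 1, rC L c 0 + rC L c 1]

/-- The increments of the three edges. -/
noncomputable def edgeVal (c : Cl L) : Fin 3 → ZMod (qC L c) := ![0, 0, 1]

variable {L}

theorem tw_ne_inj (i : Fin 3) (d : Fin 2) (κ : sub L) : tw L i d ≠ inj κ := by
  intro h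
  have := congrArg Prod.fst h
  fin_cases d <;> by_cases hc : i = 1 <;> by_cases hc' : i = 2 <;>
    simp [tw, inj, uu, hc, hc'] at this

theorem sB_ne_inj (b : L.B) : ∀ κ : sub L, sB L b ≠ inj κ :=
  ne_inj_of_rho (rhoB L b) (fun κ => (rho_inj κ).2.1 b) (by rw [rhoB_sB_self]; exact one_ne_zero)

theorem sB_add_sB_ne_inj (b : L.B) : ∀ κ : sub L, sB L b + sB L b ≠ inj κ := by
  refine ne_inj_of_rho (rhoB L b) (fun κ => (rho_inj κ).2.1 b) ?_
  rw [map_add, rhoB_sB_self]
  intro h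
  have h2 : ((2 : ℕ) : ZMod (qB L b)) = 0 := by rw [Nat.cast_two, ← h]; norm_num
  rw [ZMod.natCast_eq_zero_iff] at h2
  exact absurd (Nat.le_of_dvd (by norm_num) h2) (by have := three_le_num L (Sum.inl b); show ¬ num L _ ≤ 2; omega)

theorem uu_ne_inj : ∀ κ : sub L, uu L ≠ inj κ :=
  ne_inj_of_rho (rhoU L) (fun κ => (rho_inj κ).1) (by rw [rhoU_uu]; decide)

theorem rC_ne_inj (c : Cl L) (d : Fin 2) : ∀ κ : sub L, rC L c d ≠ inj κ := by
  refine ne_inj_of_rho (rhoC L c) (fun κ => (rho_inj κ).2.2 c) ?_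
  rw [rhoC_rC]; fin_cases d <;> simp

theorem perV_ne_inj (b : L.B) (hb : L.per b ≠ 0) (κ : sub L) : perV L b ≠ inj κ := fun h =>
  hb (congrArg Prod.fst h)

theorem rhoC_edge (c : Cl L) (i : Fin 3) :
    rhoC L c (edge L c i) = ![(1, 0), (0, 1), (1, 1)] i := by
  fin_cases i <;> simp [edge, rhoC_rC, map_add]

theorem edge_ne_inj (c : Cl L) (i : Fin 3) : ∀ κ : sub L, edge L c i ≠ inj κ := by
  refine ne_inj_of_rho (rhoC L c) (fun κ => (rho_inj κ).2.2 c) ?_
  rw [rhoC_edge]; fin_cases i <;> simp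

/-- Separation of a direction seen by `ρ` from the slot axis of a bit. -/
theorem sep_of_rho {M : Type*} [AddCommGroup M] (ρ : Amb L →+ M)
    (hρ : ∀ κ : sub L, ρ (inj κ) = 0) {δ : Amb L} (hδ : ρ δ ≠ 0) {b : L.B}
    (hs : ρ (sB L b) = 0) :
    (∀ κ : sub L, δ ≠ sB L b + inj κ) ∧ (∀ κ : sub L, δ ≠ -sB L b + inj κ) ∧
      (∀ κ : sub L, δ ≠ sB L b + sB L b + inj κ) ∧
      (∀ κ : sub L, δ ≠ -(sB L b + sB L b) + inj κ) :=
  ⟨ne_add_inj_of_rho ρ hρ (by rwa [hs]), ne_add_inj_of_rho ρ hρ (by rwa [map_neg, hs, neg_zero]),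
    ne_add_inj_of_rho ρ hρ (by rwa [map_add, hs, add_zero]),
    ne_add_inj_of_rho ρ hρ (by rwa [map_neg, map_add, hs, add_zero, neg_zero])⟩

theorem uu_sep (b : L.B) :
    (∀ κ : sub L, uu L ≠ sB L b + inj κ) ∧ (∀ κ : sub L, uu L ≠ -sB L b + inj κ) ∧
      (∀ κ : sub L, uu L ≠ sB L b + sB L b + inj κ) ∧
      (∀ κ : sub L, uu L ≠ -(sB L b + sB L b) + inj κ) :=
  sep_of_rho (rhoU L) (fun κ => (rho_inj κ).1) (by rw [rhoU_uu]; decide) (rhoU_sB b)

theorem edge_sep (c : Cl L) (i : Fin 3) (b : L.B) :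
    (∀ κ : sub L, edge L c i ≠ sB L b + inj κ) ∧ (∀ κ : sub L, edge L c i ≠ -sB L b + inj κ) ∧
      (∀ κ : sub L, edge L c i ≠ sB L b + sB L b + inj κ) ∧
      (∀ κ : sub L, edge L c i ≠ -(sB L b + sB L b) + inj κ) :=
  sep_of_rho (rhoC L c) (fun κ => (rho_inj κ).2.2 c)
    (by rw [rhoC_edge]; fin_cases i <;> simp) (rhoC_sB b c)

variable (L)

/-- The roles of the parity link. -/
noncomputable def parRoles (w : Fin 2) (v : Bool) : Roles (Gam L) (sub L) :=
  condRoles (chi L (parBit L w)) (psi L w) v (uu L) (sB L (parBit L w)) (bitVal v)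
    uu_ne_inj (sB_ne_inj _) (uu_sep _).1 (uu_sep _).2.1 (uu_sep _).2.2.1 (uu_sep _).2.2.2

/-- The roles of one literal of a clause. -/
noncomputable def clauseRoles (c : Cl L) (i : Fin 3) : Roles (Gam L) (sub L) :=
  condRoles (chi L (c.1 i).1) (phiC L c) (!(c.1 i).2) (edge L c i) (sB L (c.1 i).1)
    (edgeVal L c i) (edge_ne_inj c i) (sB_ne_inj _) (edge_sep c i _).1 (edge_sep c i _).2.1
    (edge_sep c i _).2.2.1 (edge_sep c i _).2.2.2

/-- The roles of an equation other than the fibre. -/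
noncomputable def roles : Idx L → Option (Roles (Gam L) (sub L))
  | .fib => none
  | .twist i d => some (stepRoles (phi L i) (tw L i d) 0 (tw_ne_inj i d))
  | .phiS i b => some (stepRoles (phi L i) (sB L b) 0 (sB_ne_inj b))
  | .phiR i c d => some (stepRoles (phi L i) (rC L c d) 0 (rC_ne_inj c d))
  | .chiU b => some (stepRoles (chi L b) (uu L) 0 uu_ne_inj)
  | .chiS b b' => some (stepRoles (chi L b) (sB L b'.1) 0 (sB_ne_inj _))
  | .chiR b c d => some (stepRoles (chi L b) (rC L c d) 0 (rC_ne_inj c d))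
  | .chiPer b => some (stepRoles (chi L b.1) (perV L b.1) 0 (perV_ne_inj b.1 b.2))
  | .bit b => some (bitRoles (chi L b) (sB L b) (sB_ne_inj b) (sB_add_sB_ne_inj b))
  | .clS c b => some (stepRoles (phiC L c) (sB L b) 0 (sB_ne_inj b))
  | .par w v => some (parRoles L w v)
  | .clause c i => some (clauseRoles L c i)

/-- The tile of an equation. -/
noncomputable def eqn (j : Idx L) : Finset (Amb L) :=
  match roles L j with
  | none => fibre (sub L)
  | some R => R.tile

variable {L}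

/-- Everything the equations say about a section. -/
structure Good (k : Amb L → sub L) : Prop where
  twist : ∀ i d, Step (phi L i) (tw L i d) 0 k
  phiS : ∀ i b, Step (phi L i) (sB L b) 0 k
  phiR : ∀ i c d, Step (phi L i) (rC L c d) 0 k
  chiU : ∀ b, Step (chi L b) (uu L) 0 k
  chiS : ∀ b b', b' ≠ b → Step (chi L b) (sB L b') 0 k
  chiR : ∀ b c d, Step (chi L b) (rC L c d) 0 k
  chiPer : ∀ b, L.per b ≠ 0 → Step (chi L b) (perV L b) 0 k
  bit : ∀ b, IsBit (chi L b) (sB L b) k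
  clS : ∀ c b, Step (phiC L c) (sB L b) 0 k
  par : ∀ w v g, incr (chi L (parBit L w)) (sB L (parBit L w)) k g = bitVal v →
    incr (psi L w) (uu L) k g = bitVal v
  clause : ∀ (c : Cl L) (i : Fin 3) g,
    incr (chi L (c.1 i).1) (sB L (c.1 i).1) k g = bitVal (!(c.1 i).2) →
      incr (phiC L c) (edge L c i) k g = edgeVal L c i

theorem chi_surjective (b : L.B) : Function.Surjective (chi L b) := fun a =>
  ⟨mk 0 0 0 (Pi.single b a) 0, by rw [chi_mk, Pi.single_eq_same]⟩

theorem phiC_surjective (c : Cl L) : Function.Surjective (phiC L c) := by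
  classical
  exact fun a => ⟨mk 0 0 0 0 (Pi.single c a), by rw [phiC_mk, Pi.single_eq_same]⟩

theorem phi_surjective (i : Fin 3) : Function.Surjective (phi L i) := fun a =>
  ⟨mk a a a 0 0, by rw [phi_mk]; fin_cases i <;> rfl⟩

theorem chi_psi_surjective (b : L.B) (w : Fin 2) :
    ∀ a e, ∃ κ : sub L, chi L b κ = a ∧ psi L w κ = e := fun a e =>
  ⟨mk 0 e e (Pi.single b a) 0, by rw [chi_mk, Pi.single_eq_same],
    by fin_cases w <;> simp [psi, phi_mk]⟩

theorem chi_phiC_surjective (b : L.B) (c : Cl L) :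
    ∀ a e, ∃ κ : sub L, chi L b κ = a ∧ phiC L c κ = e := by
  classical
  exact fun a e => ⟨mk 0 0 0 (Pi.single b a) (Pi.single c e),
    by rw [chi_mk, Pi.single_eq_same], by rw [phiC_mk, Pi.single_eq_same]⟩

theorem three_le_qB (b : L.B) : 3 ≤ qB L b := three_le_num L _

/-- All non-fibre roles hold. -/
def AllHold (k : Amb L → sub L) : Prop :=
  ∀ j R, roles L j = some R → Holds R k

theorem Good.psiS {k : Amb L → sub L} (h : Good k) (w : Fin 2) (b : L.B) :
    Step (psi L w) (sB L b) 0 k := by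
  intro g
  have a0 := h.phiS 0 b g
  have a1 := h.phiS 1 b g
  have a2 := h.phiS 2 b g
  fin_cases w <;> simp [psi, a0, a1, a2]

theorem Good.chiEdge {k : Amb L → sub L} (h : Good k) (b : L.B) (c : Cl L) (i : Fin 3) :
    Step (chi L b) (edge L c i) 0 k := by
  fin_cases i
  · exact h.chiR b c 0
  · exact h.chiR b c 1
  · simpa [edge] using (h.chiR b c 0).add (h.chiR b c 1)

theorem good_of_allHold {k : Amb L → sub L} (hk : Equivariant k) (h : AllHold k) : Good k := by
  have hT : ∀ i d, Step (phi L i) (tw L i d) 0 k := fun i d =>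
    (holds_stepRoles _ (phi_surjective i) _ _ _ hk).mp (h (.twist i d) _ rfl)
  have hPS : ∀ i b, Step (phi L i) (sB L b) 0 k := fun i b =>
    (holds_stepRoles _ (phi_surjective i) _ _ _ hk).mp (h (.phiS i b) _ rfl)
  have hPR : ∀ i c d, Step (phi L i) (rC L c d) 0 k := fun i c d =>
    (holds_stepRoles _ (phi_surjective i) _ _ _ hk).mp (h (.phiR i c d) _ rfl)
  have hU : ∀ b, Step (chi L b) (uu L) 0 k := fun b =>
    (holds_stepRoles _ (chi_surjective b) _ _ _ hk).mp (h (.chiU b) _ rfl)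
  have hS : ∀ b b', b' ≠ b → Step (chi L b) (sB L b') 0 k := fun b b' hb =>
    (holds_stepRoles _ (chi_surjective b) _ _ _ hk).mp (h (.chiS b ⟨b', hb⟩) _ rfl)
  have hR : ∀ b c d, Step (chi L b) (rC L c d) 0 k := fun b c d =>
    (holds_stepRoles _ (chi_surjective b) _ _ _ hk).mp (h (.chiR b c d) _ rfl)
  have hP : ∀ b, L.per b ≠ 0 → Step (chi L b) (perV L b) 0 k := fun b hb =>
    (holds_stepRoles _ (chi_surjective b) _ _ _ hk).mp (h (.chiPer ⟨b, hb⟩) _ rfl)
  have hB : ∀ b, IsBit (chi L b) (sB L b) k := fun b =>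
    (holds_bitRoles (three_le_qB b) _ (chi_surjective b) _ _ _ hk).mp (h (.bit b) _ rfl)
  have hC : ∀ c b, Step (phiC L c) (sB L b) 0 k := fun c b =>
    (holds_stepRoles _ (phiC_surjective c) _ _ _ hk).mp (h (.clS c b) _ rfl)
  refine ⟨hT, hPS, hPR, hU, hS, hR, hP, hB, hC, fun w v => ?_, fun c i => ?_⟩
  · have hψ : Step (psi L w) (sB L (parBit L w)) 0 k := by
      intro g
      fin_cases w <;> simp [psi, parBit, hPS 0 _ g, hPS 1 _ g, hPS 2 _ g]
    exact (holds_condRoles (three_le_qB _) _ _ (chi_psi_surjective _ w) v _ _ _ _ _ _ _ _ _ hk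
      (hU _) hψ (hB _)).mp (h (.par w v) _ rfl)
  · have he : Step (chi L (c.1 i).1) (edge L c i) 0 k := by
      fin_cases i
      · exact hR _ c 0
      · exact hR _ c 1
      · simpa [edge] using (hR (c.1 2).1 c 0).add (hR (c.1 2).1 c 1)
    exact (holds_condRoles (three_le_qB _) _ _ (chi_phiC_surjective _ c) _ _ _ _ _ _ _ _ _ _ hk
      he (hC c _) (hB _)).mp (h (.clause c i) _ rfl)

theorem allHold_of_good {k : Amb L → sub L} (hk : Equivariant k) (h : Good k) : AllHold k := by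
  intro j R hR
  cases j <;> simp only [roles, Option.some.injEq, reduceCtorEq] at hR <;> subst hR
  · exact (holds_stepRoles _ (phi_surjective _) _ _ _ hk).mpr (h.twist _ _)
  · exact (holds_stepRoles _ (phi_surjective _) _ _ _ hk).mpr (h.phiS _ _)
  · exact (holds_stepRoles _ (phi_surjective _) _ _ _ hk).mpr (h.phiR _ _ _)
  · exact (holds_stepRoles _ (chi_surjective _) _ _ _ hk).mpr (h.chiU _)
  · rename_i b b'
    exact (holds_stepRoles _ (chi_surjective b) _ _ _ hk).mpr (h.chiS b b'.1 b'.2)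
  · exact (holds_stepRoles _ (chi_surjective _) _ _ _ hk).mpr (h.chiR _ _ _)
  · rename_i b
    exact (holds_stepRoles _ (chi_surjective _) _ _ _ hk).mpr (h.chiPer b.1 b.2)
  · exact (holds_bitRoles (three_le_qB _) _ (chi_surjective _) _ _ _ hk).mpr (h.bit _)
  · exact (holds_stepRoles _ (phiC_surjective _) _ _ _ hk).mpr (h.clS _ _)
  · rename_i w v
    exact (holds_condRoles (three_le_qB _) _ _ (chi_psi_surjective _ w) v _ _ _ _ _ _ _ _ _ hk
      (h.chiU _) (h.psiS w _) (h.bit _)).mpr (h.par w v)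
  · rename_i c i
    exact (holds_condRoles (three_le_qB _) _ _ (chi_phiC_surjective _ c) _ _ _ _ _ _ _ _ _ _ hk
      (h.chiEdge _ c i) (h.clS c _) (h.bit _)).mpr (h.clause c i)

end

end Vale.Agent.P043.Gadget
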