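import Vale.Agent.P043.Gadget.Basic

/-!
P043 gadgets: the finite group of a line system, its subgroup, the coordinates and the
special elements.
-/

namespace Vale.Agent.P043.Gadget

instance instFintypeVars (L : LineSys) : Fintype L.B := L.fintypeB

instance instDecidableEqVars (L : LineSys) : DecidableEq L.B := L.decEqB

variable (L : LineSys)

/-- Clause index. -/
abbrev Cl : Type := {K : Fin 3 → L.B × Bool // K ∈ L.clauses}

/-- The number attached to a bit or a clause. -/
noncomputable def num : L.B ⊕ Cl L → ℕ :=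
  fun i => Nat.nth Nat.Prime ((Fintype.equivFin (L.B ⊕ Cl L) i : ℕ) + 1)

theorem num_prime (i : L.B ⊕ Cl L) : (num L i).Prime := by
  unfold num
  exact Nat.prime_nth_prime _

theorem num_injective : Function.Injective (num L) := by
  intro a b h
  unfold num at h
  have := Nat.nth_injective Nat.infinite_setOf_prime h
  exact (Fintype.equivFin _).injective (Fin.ext (by omega))

theorem three_le_num (i : L.B ⊕ Cl L) : 3 ≤ num L i := by
  unfold num
  refine le_trans (le_of_eq Nat.nth_prime_one_eq_three.symm) ?_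
  exact Nat.nth_monotone Nat.infinite_setOf_prime (by omega)

noncomputable abbrev qB (b : L.B) : ℕ := num L (Sum.inl b)
noncomputable abbrev qC (c : Cl L) : ℕ := num L (Sum.inr c)

instance instNeZeroNum (i : L.B ⊕ Cl L) : NeZero (num L i) :=
  ⟨(num_prime L i).ne_zero⟩

instance instFactNum (i : L.B ⊕ Cl L) : Fact (1 < num L i) :=
  ⟨(num_prime L i).one_lt⟩

/-- The finite group. -/
abbrev Gam : Type :=
  (ZMod 4 × ZMod 2 × ZMod 2) × ((b : L.B) → ZMod (qB L b) × ZMod (qB L b)) ×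
    ((c : Cl L) → ZMod (qC L c) × ZMod (qC L c) × ZMod (qC L c))

/-- The visible (base) coordinates. -/
noncomputable def base : Gam L →+
    ZMod 2 × ((b : L.B) → ZMod (qB L b)) × ((c : Cl L) → ZMod (qC L c) × ZMod (qC L c)) where
  toFun γ := (ZMod.castHom (by norm_num : 2 ∣ 4) (ZMod 2) γ.1.1, fun b => (γ.2.1 b).1,
    fun c => ((γ.2.2 c).1, (γ.2.2 c).2.1))
  map_zero' := by ext <;> simp
  map_add' a b := by ext <;> simp

/-- The fibre subgroup. -/
noncomputable def sub : AddSubgroup (Gam L) := (base L).ker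

variable {L}

theorem mem_sub {γ : Gam L} : γ ∈ sub L ↔
    ZMod.castHom (by norm_num : 2 ∣ 4) (ZMod 2) γ.1.1 = 0 ∧ (∀ b, (γ.2.1 b).1 = 0) ∧
      ∀ c, (γ.2.2 c).1 = 0 ∧ (γ.2.2 c).2.1 = 0 := by
  simp [sub, base, Prod.ext_iff, funext_iff]

/-- High digit modulo four. -/
def high (i : ZMod 4) : ZMod 2 := if i = 2 ∨ i = 3 then 1 else 0

theorem high_add_two (i : ZMod 4) : high (i + 2) = high i + 1 := by
  revert i; decide

theorem high_zero : high 0 = 0 := by decide

theorem high_add_of_even : ∀ a b : ZMod 4,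
    ZMod.castHom (by norm_num : 2 ∣ 4) (ZMod 2) b = 0 → high (a + b) = high a + high b := by
  decide

/-- Double of the high digit. -/
def dbl (f : ZMod 2) : ZMod 4 := if f = 0 then 0 else 2

theorem cast_dbl : ∀ f : ZMod 2, ZMod.castHom (by norm_num : 2 ∣ 4) (ZMod 2) (dbl f) = 0 := by
  decide

theorem high_dbl : ∀ f : ZMod 2, high (dbl f) = f := by decide

theorem dbl_high : ∀ i : ZMod 4,
    ZMod.castHom (by norm_num : 2 ∣ 4) (ZMod 2) i = 0 → dbl (high i) = i := by
  decide

variable (L)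

/-- The three marker coordinates. -/
noncomputable def phi : Fin 3 → (sub L →+ ZMod 2) :=
  ![{ toFun := fun κ => high κ.1.1.1
      map_zero' := high_zero
      map_add' := fun a b => high_add_of_even _ _ (mem_sub.mp b.2).1 },
    { toFun := fun κ => high κ.1.1.1 + κ.1.1.2.1
      map_zero' := by simp [high_zero]
      map_add' := fun a b => by
        have := high_add_of_even a.1.1.1 b.1.1.1 (mem_sub.mp b.2).1
        show high (a.1.1.1 + b.1.1.1) + (a.1.1.2.1 + b.1.1.2.1) = _
        rw [this]; abel },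
    { toFun := fun κ => high κ.1.1.1 + κ.1.1.2.2
      map_zero' := by simp [high_zero]
      map_add' := fun a b => by
        have := high_add_of_even a.1.1.1 b.1.1.1 (mem_sub.mp b.2).1
        show high (a.1.1.1 + b.1.1.1) + (a.1.1.2.2 + b.1.1.2.2) = _
        rw [this]; abel }]

/-- The coordinate of a bit. -/
noncomputable def chi (b : L.B) : sub L →+ ZMod (qB L b) where
  toFun κ := (κ.1.2.1 b).2
  map_zero' := rfl
  map_add' _ _ := rfl

/-- The coordinate of a clause. -/
noncomputable def phiC (c : Cl L) : sub L →+ ZMod (qC L c) where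
  toFun κ := (κ.1.2.2 c).2.2
  map_zero' := rfl
  map_add' _ _ := rfl

variable {L}

/-- The element of the fibre with prescribed coordinates. -/
noncomputable def mk (f0 f1 f2 : ZMod 2) (fb : (b : L.B) → ZMod (qB L b))
    (fc : (c : Cl L) → ZMod (qC L c)) : sub L :=
  ⟨((dbl f0, f1 - f0, f2 - f0), fun b => (0, fb b), fun c => (0, 0, fc c)),
    mem_sub.mpr ⟨cast_dbl f0, fun _ => rfl, fun _ => ⟨rfl, rfl⟩⟩⟩

theorem phi_mk (f0 f1 f2 : ZMod 2) (fb : (b : L.B) → ZMod (qB L b))
    (fc : (c : Cl L) → ZMod (qC L c)) (i : Fin 3) :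
    phi L i (mk f0 f1 f2 fb fc) = ![f0, f1, f2] i := by
  fin_cases i <;> simp [phi, mk, high_dbl]

theorem chi_mk (f0 f1 f2 : ZMod 2) (fb : (b : L.B) → ZMod (qB L b))
    (fc : (c : Cl L) → ZMod (qC L c)) (b : L.B) : chi L b (mk f0 f1 f2 fb fc) = fb b := rfl

theorem phiC_mk (f0 f1 f2 : ZMod 2) (fb : (b : L.B) → ZMod (qB L b))
    (fc : (c : Cl L) → ZMod (qC L c)) (c : Cl L) : phiC L c (mk f0 f1 f2 fb fc) = fc c := rfl

theorem eq_mk (κ : sub L) : κ = mk (phi L 0 κ) (phi L 1 κ) (phi L 2 κ) (fun b => chi L b κ)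
    (fun c => phiC L c κ) := by
  obtain ⟨h1, h2, h3⟩ := mem_sub.mp κ.2
  apply Subtype.ext
  refine Prod.ext (Prod.ext ?_ (Prod.ext ?_ ?_)) (Prod.ext (funext fun b => ?_) (funext fun c => ?_))
  · exact (dbl_high _ h1).symm
  · simp [mk, phi]
  · simp [mk, phi]
  · exact Prod.ext (h2 b) rfl
  · exact Prod.ext (h3 c).1 (Prod.ext (h3 c).2 rfl)

variable (L)

/-- The ambient group. -/
abbrev Amb : Type := (ℤ × ℤ) × Gam L

/-- Generator of the parity axis. -/
noncomputable def uu : Amb L := (0, ((1, 0, 0), 0, 0))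

/-- Generator of the slot axis of a bit. -/
noncomputable def sB (b : L.B) : Amb L :=
  (0, (0, Pi.single b ((1 : ZMod (qB L b)), (0 : ZMod (qB L b))), 0))

/-- The two generators of a clause. -/
noncomputable def rC (c : Cl L) : Fin 2 → Amb L :=
  ![(0, (0, 0, Pi.single c ((1 : ZMod (qC L c)), (0 : ZMod (qC L c)), (0 : ZMod (qC L c))))),
    (0, (0, 0, Pi.single c ((0 : ZMod (qC L c)), (1 : ZMod (qC L c)), (0 : ZMod (qC L c)))))]

/-- Parity base coordinate. -/
noncomputable def rhoU : Amb L →+ ZMod 2 where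
  toFun g := ZMod.castHom (by norm_num : 2 ∣ 4) (ZMod 2) g.2.1.1
  map_zero' := map_zero _
  map_add' _ _ := map_add _ _ _

/-- Slot base coordinate of a bit. -/
noncomputable def rhoB (b : L.B) : Amb L →+ ZMod (qB L b) where
  toFun g := (g.2.2.1 b).1
  map_zero' := rfl
  map_add' _ _ := rfl

/-- Base coordinates of a clause. -/
noncomputable def rhoC (c : Cl L) : Amb L →+ ZMod (qC L c) × ZMod (qC L c) where
  toFun g := ((g.2.2.2 c).1, (g.2.2.2 c).2.1)
  map_zero' := rfl
  map_add' _ _ := rfl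

variable {L}

theorem rho_inj (κ : sub L) : rhoU L (inj κ) = 0 ∧ (∀ b, rhoB L b (inj κ) = 0) ∧
    ∀ c, rhoC L c (inj κ) = 0 := by
  obtain ⟨h1, h2, h3⟩ := mem_sub.mp κ.2
  exact ⟨h1, h2, fun c => Prod.ext (h3 c).1 (h3 c).2⟩

theorem rhoU_uu : rhoU L (uu L) = 1 := by simp [rhoU, uu]

theorem rhoU_sB (b : L.B) : rhoU L (sB L b) = 0 := by simp [rhoU, sB]

theorem rhoB_sB_self (b : L.B) : rhoB L b (sB L b) = 1 := by
  simp [rhoB, sB]

theorem rhoB_sB_ne {b b' : L.B} (h : b' ≠ b) : rhoB L b' (sB L b) = 0 := by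
  simp [rhoB, sB, Pi.single_eq_of_ne h]

theorem rhoC_sB (b : L.B) (c : Cl L) : rhoC L c (sB L b) = 0 := by simp [rhoC, sB]

theorem rhoC_rC (c : Cl L) (d : Fin 2) : rhoC L c (rC L c d) = ![(1, 0), (0, 1)] d := by
  fin_cases d <;> simp [rhoC, rC]

theorem rhoB_rC (c : Cl L) (d : Fin 2) (b : L.B) : rhoB L b (rC L c d) = 0 := by
  fin_cases d <;> simp [rhoB, rC]

/-- A point outside the fibre, seen by a base coordinate. -/
theorem ne_inj_of_rho {M : Type*} [AddCommGroup M] (ρ : Amb L →+ M) (hρ : ∀ κ : sub L, ρ (inj κ) = 0)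
    {w : Amb L} (hw : ρ w ≠ 0) (κ : sub L) : w ≠ inj κ := fun h => hw (h ▸ hρ κ)

/-- Two points in different fibres, seen by a base coordinate. -/
theorem ne_add_inj_of_rho {M : Type*} [AddCommGroup M] (ρ : Amb L →+ M)
    (hρ : ∀ κ : sub L, ρ (inj κ) = 0) {w w' : Amb L} (hw : ρ w ≠ ρ w') (κ : sub L) :
    w ≠ w' + inj κ := fun h => hw (by rw [h, map_add, hρ, add_zero])

end Vale.Agent.P043.Gadget
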