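import Vale.Agent.P043.Gadget.Sound
import Vale.Agent.P043.Gadget.Complete

/-!
P043: every line system becomes a system of tiling equations.
-/

namespace Vale.Agent.P043.Gadget

variable {L : LineSys}

theorem crt_surjective {ι : Type} [Fintype ι] (n : ι → ℕ) (h : Pairwise (Function.onFun Nat.Coprime n))
    (a : ∀ i, ZMod (n i)) : ∃ z : ℤ, ∀ i, (z : ZMod (n i)) = a i := by
  obtain ⟨z, hz⟩ := ZMod.intCast_surjective ((ZMod.prodEquivPi n h).symm a)
  refine ⟨z, fun i => ?_⟩
  have : (ZMod.prodEquivPi n h) (z : ZMod (∏ i, n i)) = a := by rw [hz, RingEquiv.apply_symm_apply]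
  rw [← this, map_intCast]
  rfl

theorem exists_generators : ∃ π : (Fin 3 → ℤ) →+ Gam L, Function.Surjective π := by
  classical
  let π : (Fin 3 → ℤ) →+ Gam L :=
    { toFun := fun v => (((v 0 : ZMod 4), (v 1 : ZMod 2), (v 2 : ZMod 2)),
        (fun b => ((v 0 : ZMod (qB L b)), (v 1 : ZMod (qB L b)))),
        fun K => ((v 0 : ZMod (qC L K)), (v 1 : ZMod (qC L K)), (v 2 : ZMod (qC L K))))
      map_zero' := by ext <;> simp
      map_add' := fun a b => by ext <;> simp }
  refine ⟨π, ?_⟩
  rintro ⟨⟨i, j, l⟩, fb, fc⟩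
  have hcop : ∀ (t : ℕ), t = 2 ∨ t = 4 → Pairwise (Function.onFun Nat.Coprime
      (fun o : Option (L.B ⊕ Cl L) => o.elim t (num L))) := by
    intro t ht a b hab
    have h2 : ∀ x, Nat.Coprime t (num L x) := by
      intro x
      have hp := num_prime L x
      have h3 := three_le_num L x
      have h2' : Nat.Coprime 2 (num L x) :=
        (Nat.coprime_primes Nat.prime_two hp).mpr (by omega)
      rcases ht with rfl | rfl
      · exact h2'
      · exact Nat.Coprime.mul_left h2' h2'
    rcases a with _ | a <;> rcases b with _ | b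
    · exact absurd rfl hab
    · exact h2 b
    · exact (h2 a).symm
    · exact (Nat.coprime_primes (num_prime L a) (num_prime L b)).mpr
        (fun e => hab (congrArg some (num_injective L e)))
  obtain ⟨z0, h0⟩ := crt_surjective _ (hcop 4 (Or.inr rfl)) fun o => match o with
    | none => i
    | some (Sum.inl b) => (fb b).1
    | some (Sum.inr K) => (fc K).1
  obtain ⟨z1, h1⟩ := crt_surjective _ (hcop 2 (Or.inl rfl)) fun o => match o with
    | none => j
    | some (Sum.inl b) => (fb b).2
    | some (Sum.inr K) => (fc K).2.1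
  obtain ⟨z2, h2⟩ := crt_surjective _ (hcop 2 (Or.inl rfl)) fun o => match o with
    | none => l
    | some (Sum.inl _) => 0
    | some (Sum.inr K) => (fc K).2.2
  refine ⟨![z0, z1, z2], ?_⟩
  refine Prod.ext (Prod.ext (h0 none) (Prod.ext (h1 none) (h2 none))) (Prod.ext ?_ ?_)
  · funext b
    exact Prod.ext (h0 (some (Sum.inl b))) (h1 (some (Sum.inl b)))
  · funext K
    exact Prod.ext (h0 (some (Sum.inr K)))
      (Prod.ext (h1 (some (Sum.inr K))) (h2 (some (Sum.inr K))))

theorem systemTiles_zeroSet_iff {k : Amb L → sub L} (hk : Equivariant k) :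
    SystemTiles (eqn L) (zeroSet k) ↔ AllHold k := by
  constructor
  · intro h j R hR
    have := h j
    rw [eqn, hR] at this
    exact (isTiling_tile_iff R hk).mp this
  · intro h j
    rw [eqn]
    cases hR : roles L j with
    | none => exact isTiling_fibre_zeroSet hk
    | some R => exact (isTiling_tile_iff R hk).mpr (h j R hR)

/-- The gadget pin. -/
theorem gadgetPin : GadgetPin := by
  rintro ⟨L, ⟨c, hc⟩, hno⟩
  have hk := section_equivariant (L := L) c
  have hall := allHold_of_good hk (section_good hc)
  refine ⟨Gam L, inferInstance, inferInstance, sub L, Idx L, inferInstance, eqn L,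
    fun j => ?_, ⟨Idx.fib, rfl⟩, exists_generators, ⟨zeroSet (section' c),
      (systemTiles_zeroSet_iff hk).mpr hall⟩, fun A hA hper => ?_⟩
  · rw [eqn]
    cases hR : roles L j with
    | none => rfl
    | some R => exact card_tile R hk (hall j R hR)
  · obtain ⟨k, hk', rfl⟩ := exists_section (hA Idx.fib)
    have hgood := good_of_allHold hk' ((systemTiles_zeroSet_iff hk').mp hA)
    exact hno _ (zeroSet_periodic_perSol hk' hgood hper)

end Vale.Agent.P043.Gadget
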