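import Vale.Agent.P043.Pins

/-!
P043 gadgets: tiles built from roles.  A tiling `A` with fibre `K` is the same as an
equivariant map `k` to `K` (`A` is its zero set); a tile made of roles `(w i, T i)` tiles
with `A` iff at every point exactly one role fires.
-/

namespace Vale.Agent.P043.Gadget

variable {Γ : Type*} [AddCommGroup Γ] [Fintype Γ] {K : AddSubgroup Γ}

/-- The element `(0, κ)`. -/
def inj (κ : K) : (ℤ × ℤ) × Γ := (0, (κ : Γ))

omit [Fintype Γ] in
theorem inj_add (a b : K) : inj (a + b) = inj a + inj b := by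
  simp [inj]

omit [Fintype Γ] in
theorem inj_neg (a : K) : inj (-a) = -inj a := by
  simp [inj]

omit [Fintype Γ] in
theorem inj_zero : inj (0 : K) = 0 := by
  simp [inj]

omit [Fintype Γ] in
theorem inj_injective : Function.Injective (inj : K → (ℤ × ℤ) × Γ) := by
  intro a b h
  simpa [inj] using h

theorem mem_fibre {f : (ℤ × ℤ) × Γ} : f ∈ fibre K ↔ ∃ κ : K, inj κ = f := by
  simp [fibre, inj]

theorem inj_mem_fibre (κ : K) : inj κ ∈ fibre K := mem_fibre.mpr ⟨κ, rfl⟩

/-- Equivariance of a section map. -/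
def Equivariant (k : (ℤ × ℤ) × Γ → K) : Prop :=
  ∀ g (κ : K), k (g + inj κ) = k g + κ

/-- The zero set of a section map. -/
def zeroSet (k : (ℤ × ℤ) × Γ → K) : Set ((ℤ × ℤ) × Γ) := {g | k g = 0}

omit [Fintype Γ] in
theorem sub_inj_mem_iff {k : (ℤ × ℤ) × Γ → K} (hk : Equivariant k) (g : (ℤ × ℤ) × Γ) (κ : K) :
    g - inj κ ∈ zeroSet k ↔ k g = κ := by
  have h := hk (g - inj κ) κ
  rw [sub_add_cancel] at h
  constructor
  · intro h0
    rw [h, show k (g - inj κ) = 0 from h0, zero_add]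
  · intro h1
    show k (g - inj κ) = 0
    rw [h1] at h
    exact left_eq_add.mp (by rw [add_comm]; exact h)

theorem isTiling_fibre_zeroSet {k : (ℤ × ℤ) × Γ → K} (hk : Equivariant k) :
    IsTiling (fibre K) (zeroSet k) := by
  intro g
  refine ⟨inj (k g), ⟨inj_mem_fibre _, (sub_inj_mem_iff hk g _).mpr rfl⟩, ?_⟩
  rintro f ⟨hf, hA⟩
  obtain ⟨κ, rfl⟩ := mem_fibre.mp hf
  rw [(sub_inj_mem_iff hk g κ).mp hA]

/-- A tiling by the fibre is the zero set of an equivariant map. -/
theorem exists_section {A : Set ((ℤ × ℤ) × Γ)} (hA : IsTiling (fibre K) A) :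
    ∃ k : (ℤ × ℤ) × Γ → K, Equivariant k ∧ zeroSet k = A := by
  have hex : ∀ g, ∃ κ : K, g - inj κ ∈ A := by
    intro g
    obtain ⟨f, ⟨hf, hfA⟩, -⟩ := hA g
    obtain ⟨κ, rfl⟩ := mem_fibre.mp hf
    exact ⟨κ, hfA⟩
  have huniq : ∀ g, ∀ a b : K, g - inj a ∈ A → g - inj b ∈ A → a = b := fun g a b ha hb =>
    inj_injective ((hA g).unique ⟨inj_mem_fibre a, ha⟩ ⟨inj_mem_fibre b, hb⟩)
  choose k hk using hex
  refine ⟨k, fun g κ => huniq _ _ _ (hk _) ?_, ?_⟩
  · have : g + inj κ - inj (k g + κ) = g - inj (k g) := by rw [inj_add]; abel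
    rw [this]; exact hk g
  · ext g
    constructor
    · intro h0
      have h := hk g
      rw [show k g = 0 from h0, inj_zero, sub_zero] at h
      exact h
    · intro hg
      exact huniq g _ _ (hk g) (by rw [inj_zero, sub_zero]; exact hg)

/-- A finite list of roles: shifts, and the values at which each fires. -/
structure Roles (Γ : Type*) [AddCommGroup Γ] (K : AddSubgroup Γ) where
  n : ℕ
  w : Fin n → (ℤ × ℤ) × Γ
  T : Fin n → Set K
  sep : ∀ i j, ∀ κ : K, w i = w j + inj κ → i = j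

/-- Exactly one role fires at every point. -/
def Holds (R : Roles Γ K) (k : (ℤ × ℤ) × Γ → K) : Prop :=
  ∀ g, ∃! i : Fin R.n, k (g + R.w i) ∈ R.T i

/-- The tile of a list of roles. -/
noncomputable def Roles.tile (R : Roles Γ K) : Finset ((ℤ × ℤ) × Γ) := by
  classical
  exact Finset.image (fun p => -R.w p.1 + inj p.2)
    (Finset.filter (fun p => p.2 ∈ R.T p.1) (Finset.univ : Finset (Fin R.n × K)))

omit [Fintype Γ] in
theorem Roles.pair_injective (R : Roles Γ K) :
    Function.Injective (fun p : Fin R.n × K => -R.w p.1 + inj p.2) := by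
  rintro ⟨i, a⟩ ⟨j, b⟩ h
  simp only at h
  have hw : R.w i = R.w j + inj (a - b) := by
    have : inj (a - b) = inj a - inj b := by simp [inj]
    rw [this]
    calc R.w i = inj a - (-R.w i + inj a) := by abel
      _ = inj a - (-R.w j + inj b) := by rw [h]
      _ = R.w j + (inj a - inj b) := by abel
  obtain rfl := R.sep i j _ hw
  rw [add_right_inj] at h
  rw [inj_injective h]

theorem Roles.mem_tile {R : Roles Γ K} {f : (ℤ × ℤ) × Γ} :
    f ∈ R.tile ↔ ∃ i, ∃ t : K, t ∈ R.T i ∧ -R.w i + inj t = f := by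
  classical
  simp [Roles.tile]

theorem isTiling_tile_iff (R : Roles Γ K) {k : (ℤ × ℤ) × Γ → K} (hk : Equivariant k) :
    IsTiling R.tile (zeroSet k) ↔ Holds R k := by
  have key : ∀ g i (t : K), g - (-R.w i + inj t) ∈ zeroSet k ↔ k (g + R.w i) = t := by
    intro g i t
    rw [← sub_inj_mem_iff hk]
    have : g - (-R.w i + inj t) = g + R.w i - inj t := by abel
    rw [this]
  constructor
  · intro h g
    obtain ⟨f, ⟨hf, hfA⟩, hu⟩ := h g
    obtain ⟨i, t, ht, rfl⟩ := Roles.mem_tile.mp hf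
    refine ⟨i, by show k (g + R.w i) ∈ R.T i; rw [(key g i t).mp hfA]; exact ht, fun j hj => ?_⟩
    have := hu (-R.w j + inj (k (g + R.w j)))
      ⟨Roles.mem_tile.mpr ⟨j, _, hj, rfl⟩, (key g j _).mpr rfl⟩
    exact congrArg Prod.fst (R.pair_injective
      (a₁ := (j, k (g + R.w j))) (a₂ := (i, t)) this)
  · intro h g
    obtain ⟨i, hi, hu⟩ := h g
    refine ⟨-R.w i + inj (k (g + R.w i)),
      ⟨Roles.mem_tile.mpr ⟨i, _, hi, rfl⟩, (key g i _).mpr rfl⟩, ?_⟩
    rintro f ⟨hf, hfA⟩
    obtain ⟨j, t, ht, rfl⟩ := Roles.mem_tile.mp hf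
    have hj := (key g j t).mp hfA
    subst hj
    obtain rfl := hu j ht
    rfl

theorem card_tile (R : Roles Γ K) {k : (ℤ × ℤ) × Γ → K} (hk : Equivariant k)
    (h : Holds R k) : R.tile.card = (fibre K).card := by
  classical
  have h0 : ∀ κ : K, ∀ i, k (inj κ + R.w i) = k (R.w i) + κ := fun κ i => by
    rw [add_comm]; exact hk _ _
  rw [Roles.tile, Finset.card_image_of_injective _ R.pair_injective]
  have hf : (fibre K).card = (Finset.univ : Finset K).card := by
    have : fibre K = (Finset.univ : Finset K).image inj := by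
      ext f; simp [mem_fibre]
    rw [this, Finset.card_image_of_injective _ inj_injective]
  rw [hf]
  refine (Finset.card_bij (fun κ _ => ((h (inj κ)).choose, k (inj κ + R.w (h (inj κ)).choose)))
    ?_ ?_ ?_).symm
  · intro κ _
    simpa using (h (inj κ)).choose_spec.1
  · intro a _ b _ hab
    simp only [Prod.mk.injEq] at hab
    obtain ⟨h1, h2⟩ := hab
    rw [← h1, h0, h0] at h2
    exact add_left_cancel h2
  · rintro ⟨i, t⟩ ht
    simp only [Finset.mem_filter, Finset.mem_univ, true_and] at ht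
    refine ⟨t - k (R.w i), Finset.mem_univ _, ?_⟩
    have hfire : k (inj (t - k (R.w i)) + R.w i) = t := by rw [h0]; abel
    have := (h (inj (t - k (R.w i)))).choose_spec.2 i (by show k _ ∈ _; rw [hfire]; exact ht)
    rw [← this, hfire]

end Vale.Agent.P043.Gadget
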