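import Vale.Agent.P043.Gadget.Eqns

/-!
P043 gadgets: a section satisfying the equations gives a solution of the line system.
-/

namespace Vale.Agent.P043.Gadget

variable {L : LineSys}

theorem bool_eq_of_iff {a b : Bool} (h : a = true ↔ b = true) : a = b := by
  cases a <;> cases b <;> simp_all

theorem incr_add_of_step {n : ℕ} {φ : sub L →+ ZMod n} {w : Amb L} {e : ZMod n}
    {k : Amb L → sub L} (h : Step φ w e k) (δ g : Amb L) :
    incr φ δ k (g + w) = incr φ δ k g := by
  simp only [incr]
  rw [add_right_comm g w δ, h (g + δ), h g]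
  ring

/-- Twice the parity generator lies in the fibre, with all marker coordinates one. -/
theorem uu_add_uu : uu L + uu L = inj (mk (L := L) 1 1 1 0 0) := by
  simp [uu, inj, mk, dbl]
  exact ⟨by decide, by funext b; rfl, by funext c; rfl⟩

theorem phi_step_two {k : Amb L → sub L} (hk : Equivariant k) (i : Fin 3) (g : Amb L) :
    phi L i (k (g + uu L + uu L)) = phi L i (k g) + 1 := by
  rw [add_assoc, uu_add_uu, hk, map_add, phi_mk]
  fin_cases i <;> rfl

theorem psi_step_two {k : Amb L → sub L} (hk : Equivariant k) (w : Fin 2) (g : Amb L) :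
    psi L w (k (g + uu L + uu L)) = psi L w (k g) := by
  have h2 : (1 : ZMod 2) + 1 = 0 := by decide
  fin_cases w <;> simp [psi, phi_step_two hk] <;> linear_combination h2

theorem psi_incr_uu {k : Amb L → sub L} (hk : Equivariant k) (w : Fin 2) (g : Amb L) :
    incr (psi L w) (uu L) k (g + uu L) = incr (psi L w) (uu L) k g := by
  simp only [incr]
  rw [psi_step_two hk]
  generalize psi L w (k (g + uu L)) = a
  generalize psi L w (k g) = b
  revert a b
  decide

/-- A function on the ambient group invariant under the generators of the finite factor. -/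
theorem invariant_finite {β : Type*} (f : Amb L → β) (hK : ∀ g (κ : sub L), f (g + inj κ) = f g)
    (hu : ∀ g, f (g + uu L) = f g) (hs : ∀ g b, f (g + sB L b) = f g)
    (hr : ∀ g c d, f (g + rC L c d) = f g) (g : Amb L) (γ : Gam L) :
    f (g + ((0 : ℤ × ℤ), γ)) = f g := by
  classical
  let S : AddSubgroup (Amb L) :=
    { carrier := {w | ∀ g, f (g + w) = f g}
      zero_mem' := fun g => by rw [add_zero]
      add_mem' := fun {a b} ha hb g => by rw [← add_assoc, hb, ha]
      neg_mem' := fun {a} ha g => by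
        have := ha (g + -a)
        rw [neg_add_cancel_right] at this
        exact this.symm }
  have hKmem : ∀ κ : sub L, inj κ ∈ S := fun κ g => hK g κ
  have huS : uu L ∈ S := hu
  have hsS : ∀ b, sB L b ∈ S := fun b g => hs g b
  have hrS : ∀ c d, rC L c d ∈ S := fun c d g => hr g c d
  suffices h : ((0 : ℤ × ℤ), γ) ∈ S from h g
  let T : AddSubgroup (Gam L) := S.comap (AddMonoidHom.inr (ℤ × ℤ) (Gam L))
  suffices h : γ ∈ T from h
  obtain ⟨⟨i, jl⟩, fb, fc⟩ := γ
  have hT1 : ((i, jl), 0, 0) ∈ T := by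
    have hu' : ((((1 : ZMod 4), (0 : ZMod 2 × ZMod 2)), 0, 0) : Gam L) ∈ T := huS
    have hj : ((((0 : ZMod 4), jl), 0, 0) : Gam L) ∈ T :=
      hKmem ⟨_, mem_sub.mpr ⟨map_zero _, fun _ => rfl, fun _ => ⟨rfl, rfl⟩⟩⟩
    have : (((i, jl), 0, 0) : Gam L) = i.val • (((1 : ZMod 4), (0 : ZMod 2 × ZMod 2)), 0, 0)
        + (((0 : ZMod 4), jl), 0, 0) := by
      simp [Prod.smul_mk]
    rw [this]
    exact T.add_mem (T.nsmul_mem hu' _) hj
  have hT2 : ((0, fb, 0) : Gam L) ∈ T := by
    let e : ((b : L.B) → ZMod (qB L b) × ZMod (qB L b)) →+ Gam L :=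
      (AddMonoidHom.inr _ _).comp (AddMonoidHom.inl _ _)
    suffices h : fb ∈ T.comap e from h
    refine AddSubgroup.pi_mem_of_single_mem fb fun b => ?_
    obtain ⟨a, z⟩ := fb b
    show (0, Pi.single b (a, z), 0) ∈ T
    have h1 : ((0, Pi.single b ((1 : ZMod (qB L b)), (0 : ZMod (qB L b))), 0) : Gam L) ∈ T := hsS b
    have h2 : ((0, Pi.single b ((0 : ZMod (qB L b)), z), 0) : Gam L) ∈ T := by
      refine hKmem ⟨_, mem_sub.mpr ⟨map_zero _, fun b' => ?_, fun _ => ⟨rfl, rfl⟩⟩⟩
      rcases eq_or_ne b' b with rfl | h <;> simp_all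
    have : ((0, Pi.single b (a, z), 0) : Gam L)
        = a.val • (0, Pi.single b ((1 : ZMod (qB L b)), (0 : ZMod (qB L b))), 0)
          + (0, Pi.single b ((0 : ZMod (qB L b)), z), 0) := by
      simp only [Prod.smul_mk, smul_zero, Prod.mk_add_mk, add_zero, ← Pi.single_smul,
        ← Pi.single_add]
      simp
    rw [this]
    exact T.add_mem (T.nsmul_mem h1 _) h2
  have hT3 : ((0, 0, fc) : Gam L) ∈ T := by
    let e : ((c : Cl L) → ZMod (qC L c) × ZMod (qC L c) × ZMod (qC L c)) →+ Gam L :=
      (AddMonoidHom.inr _ _).comp (AddMonoidHom.inr _ _)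
    suffices h : fc ∈ T.comap e from h
    refine AddSubgroup.pi_mem_of_single_mem fc fun c => ?_
    obtain ⟨a, a', z⟩ := fc c
    show (0, 0, Pi.single c (a, a', z)) ∈ T
    have h1 : ((0, 0, Pi.single c ((1 : ZMod (qC L c)), (0 : ZMod (qC L c)), (0 : ZMod (qC L c)))) :
        Gam L) ∈ T := hrS c 0
    have h1' : ((0, 0, Pi.single c ((0 : ZMod (qC L c)), (1 : ZMod (qC L c)), (0 : ZMod (qC L c)))) :
        Gam L) ∈ T := hrS c 1
    have h2 : ((0, 0, Pi.single c ((0 : ZMod (qC L c)), (0 : ZMod (qC L c)), z)) : Gam L) ∈ T := by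
      refine hKmem ⟨_, mem_sub.mpr ⟨map_zero _, fun _ => rfl, fun c' => ?_⟩⟩
      rcases eq_or_ne c' c with rfl | h <;> simp_all
    have : ((0, 0, Pi.single c (a, a', z)) : Gam L)
        = a.val • (0, 0, Pi.single c ((1 : ZMod (qC L c)), (0 : ZMod (qC L c)), (0 : ZMod (qC L c))))
          + a'.val • (0, 0,
              Pi.single c ((0 : ZMod (qC L c)), (1 : ZMod (qC L c)), (0 : ZMod (qC L c))))
          + (0, 0, Pi.single c ((0 : ZMod (qC L c)), (0 : ZMod (qC L c)), z)) := by
      simp only [Prod.smul_mk, smul_zero, Prod.mk_add_mk, add_zero, ← Pi.single_smul,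
        ← Pi.single_add]
      simp
    rw [this]
    exact T.add_mem (T.add_mem (T.nsmul_mem h1 _) (T.nsmul_mem h1' _)) h2
  have : (((i, jl), fb, fc) : Gam L) = ((i, jl), 0, 0) + (0, fb, 0) + (0, 0, fc) := by simp
  rw [this]
  exact T.add_mem (T.add_mem hT1 hT2) hT3

/-- The slope of a bit at a base point. -/
noncomputable def slope (k : Amb L → sub L) (b : L.B) (g : Amb L) : ZMod (qB L b) :=
  incr (chi L b) (sB L b) k g

theorem slope_finite {k : Amb L → sub L} (hk : Equivariant k) (h : Good k) (b : L.B)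
    (g : Amb L) (γ : Gam L) : slope k b (g + ((0 : ℤ × ℤ), γ)) = slope k b g := by
  refine invariant_finite (fun g => slope k b g) (fun g κ => incr_shift _ hk g _ κ)
    (fun g => incr_add_of_step (h.chiU b) _ g) (fun g b' => ?_)
    (fun g c d => incr_add_of_step (h.chiR b c d) _ g) g γ
  rcases eq_or_ne b' b with rfl | hb
  · exact (h.bit b' g).2
  · exact incr_add_of_step (h.chiS b b' hb) _ g

theorem marker_finite {k : Amb L → sub L} (hk : Equivariant k) (h : Good k) (w : Fin 2)
    (g : Amb L) (γ : Gam L) :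
    incr (psi L w) (uu L) k (g + ((0 : ℤ × ℤ), γ)) = incr (psi L w) (uu L) k g := by
  refine invariant_finite (fun g => incr (psi L w) (uu L) k g) (fun g κ => incr_shift _ hk g _ κ)
    (fun g => psi_incr_uu hk w g) (fun g b' => incr_add_of_step (h.psiS w b') _ g)
    (fun g c d => ?_) g γ
  have hs : Step (psi L w) (rC L c d) 0 k := by
    intro g
    have a0 := h.phiR 0 c d g
    have a1 := h.phiR 1 c d g
    have a2 := h.phiR 2 c d g
    fin_cases w <;> simp [psi, a0, a1, a2]
  exact incr_add_of_step hs _ g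

/-- The Boolean solution read off from a section. -/
noncomputable def readOff (k : Amb L → sub L) (x : ℤ × ℤ) (b : L.B) : Bool :=
  decide (slope k b (x, 0) = 1)

theorem slope_eq_bitVal {k : Amb L → sub L} (h : Good k) (x : ℤ × ℤ) (b : L.B) :
    slope k b (x, 0) = bitVal (readOff k x b) := by
  unfold readOff
  rcases (h.bit b (x, 0)).1 with h0 | h1
  · simp [slope, h0, bitVal]
  · simp [slope, h1, bitVal]

theorem marker_eq {k : Amb L → sub L} (h : Good k) (x : ℤ × ℤ) (w : Fin 2) :
    incr (psi L w) (uu L) k (x, 0) = bitVal (readOff k x (parBit L w)) :=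
  h.par w _ (x, 0) (slope_eq_bitVal h x _)

theorem phi_incr_flip {k : Amb L → sub L} (hk : Equivariant k) (i : Fin 3) (g : Amb L) :
    incr (phi L i) (uu L) k (g + -uu L) = incr (phi L i) (uu L) k g + 1 := by
  simp only [incr, neg_add_cancel_right]
  have := phi_step_two hk i (g + -uu L)
  rw [neg_add_cancel_right] at this
  rw [this]
  generalize phi L i (k g) = a
  generalize phi L i (k (g + -uu L)) = b
  revert a b
  decide

theorem phi_incr_tw_untwisted {k : Amb L → sub L} (h : Good k) (i : Fin 3) (d : Fin 2)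
    (hno : ¬ ((i = 1 ∧ d = 0) ∨ (i = 2 ∧ d = 1))) (g : Amb L) :
    incr (phi L i) (uu L) k (g + ((![(1, 0), (0, 1)] d : ℤ × ℤ), 0))
      = incr (phi L i) (uu L) k g := by
  have := h.twist i d
  rw [tw, if_neg hno, add_zero] at this
  exact incr_add_of_step this _ g

theorem phi_incr_tw_twisted {k : Amb L → sub L} (hk : Equivariant k) (h : Good k) (i : Fin 3)
    (d : Fin 2) (hyes : (i = 1 ∧ d = 0) ∨ (i = 2 ∧ d = 1)) (g : Amb L) :
    incr (phi L i) (uu L) k (g + ((![(1, 0), (0, 1)] d : ℤ × ℤ), 0))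
      = incr (phi L i) (uu L) k g + 1 := by
  have ht := h.twist i d
  rw [tw, if_pos hyes] at ht
  rw [← phi_incr_flip hk i g]
  have e : g + ((![(1, 0), (0, 1)] d : ℤ × ℤ), (0 : Gam L))
      = g + -uu L + (((![(1, 0), (0, 1)] d : ℤ × ℤ), (0 : Gam L)) + uu L) := by abel
  rw [e]
  exact incr_add_of_step ht _ _

theorem incr_psi {k : Amb L → sub L} (w : Fin 2) (g : Amb L) :
    incr (psi L w) (uu L) k g = incr (phi L 0) (uu L) k g
      + incr (phi L (![1, 2] w)) (uu L) k g := by
  fin_cases w <;> simp [psi, incr] <;> ring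

theorem marker_move {k : Amb L → sub L} (hk : Equivariant k) (h : Good k) (w d : Fin 2)
    (g : Amb L) :
    incr (psi L w) (uu L) k (g + ((![(1, 0), (0, 1)] d : ℤ × ℤ), 0))
      = incr (psi L w) (uu L) k g + if w = d then 1 else 0 := by
  rw [incr_psi, incr_psi, phi_incr_tw_untwisted h 0 d (by simp)]
  fin_cases w <;> fin_cases d
  · rw [phi_incr_tw_twisted hk h _ _ (by simp)]; simp [add_assoc]
  · rw [phi_incr_tw_untwisted h _ _ (by simp)]; simp
  · rw [phi_incr_tw_untwisted h _ _ (by simp)]; simp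
  · rw [phi_incr_tw_twisted hk h _ _ (by simp)]; simp [add_assoc]

theorem readOff_move {k : Amb L → sub L} (hk : Equivariant k) (h : Good k) (w d : Fin 2)
    (x : ℤ × ℤ) :
    readOff k (x + ![(1, 0), (0, 1)] d) (parBit L w)
      = if w = d then !(readOff k x (parBit L w)) else readOff k x (parBit L w) := by
  have e := marker_move hk h w d (x, 0)
  rw [show ((x, 0) : Amb L) + ((![(1, 0), (0, 1)] d : ℤ × ℤ), 0)
    = (x + ![(1, 0), (0, 1)] d, 0) by simp] at e
  rw [marker_eq h, marker_eq h] at e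
  revert e
  generalize readOff k (x + ![(1, 0), (0, 1)] d) (parBit L w) = a
  generalize readOff k x (parBit L w) = b
  rcases eq_or_ne w d with hwd | hwd <;> simp only [hwd, if_true, if_false] <;>
    cases a <;> cases b <;> simp [bitVal] <;> decide

theorem readOff_isSol {k : Amb L → sub L} (hk : Equivariant k) (h : Good k) :
    L.IsSol (readOff k) := by
  refine ⟨fun x b => ?_, fun x => readOff_move hk h 0 0 x, fun x => readOff_move hk h 0 1 x,
    fun x => readOff_move hk h 1 0 x, fun x => readOff_move hk h 1 1 x, fun x K hK => ?_⟩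
  · rcases eq_or_ne (L.per b) 0 with hb | hb
    · rw [hb, add_zero]
    · have := incr_add_of_step (h.chiPer b hb) (sB L b) ((x, 0) : Amb L)
      simp only [readOff, slope]
      rw [show ((x, 0) : Amb L) + perV L b = (x + L.per b, 0) by simp [perV]] at this
      exact decide_eq_decide.mpr (by rw [this])
  · by_contra hall
    push Not at hall
    set c : Cl L := ⟨K, hK⟩
    have hfalse : ∀ i g, g.1 = x → incr (chi L (c.1 i).1) (sB L (c.1 i).1) k g
        = bitVal (!(c.1 i).2) := by
      rintro i ⟨gx, γ⟩ rfl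
      have e := slope_finite hk h (c.1 i).1 ((gx, 0) : Amb L) γ
      rw [show ((gx, 0) : Amb L) + ((0 : ℤ × ℤ), γ) = (gx, γ) by simp] at e
      show slope k (c.1 i).1 (gx, γ) = _
      rw [e, slope_eq_bitVal h]
      have := hall i
      show bitVal (readOff k gx (K i).1) = bitVal (!(K i).2)
      cases h1 : readOff k gx (K i).1 <;> cases h2 : (K i).2 <;> simp_all
    have e0 := h.clause c 0 (x, 0) (hfalse 0 _ rfl)
    have e1 := h.clause c 1 ((x, 0) + rC L c 0) (hfalse 1 _ (by simp [rC]))
    have e2 := h.clause c 2 (x, 0) (hfalse 2 _ rfl)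
    simp [incr, edge, edgeVal, ← add_assoc] at e0 e1 e2
    rw [sub_eq_zero] at e0 e1
    rw [e1, e0, sub_self] at e2
    exact zero_ne_one e2

theorem zeroSet_periodic_perSol {k : Amb L → sub L} (hk : Equivariant k) (h : Good k)
    (hper : IsPeriodic (zeroSet k)) : L.IsPerSol (readOff k) := by
  obtain ⟨H, hfin, hH⟩ := hper
  have hinv : ∀ v ∈ H, ∀ g, k (g + v) = k g := by
    intro v hv g
    rw [← sub_inj_mem_iff hk]
    have e : g + v - inj (k g) = g - inj (k g) + v := by abel
    rw [e, hH v hv]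
    exact (sub_inj_mem_iff hk g _).mpr rfl
  refine ⟨readOff_isSol hk h, H.index, Nat.pos_of_ne_zero hfin.index_ne_zero, fun x => ?_⟩
  have key : ∀ v : ℤ × ℤ, ∀ b, readOff k (x + H.index • v) b = readOff k x b := by
    intro v b
    have hmem : H.index • ((v, 0) : Amb L) ∈ H := H.nsmul_index_mem _
    simp only [readOff, slope, incr]
    have e1 := hinv _ hmem ((x, 0) : Amb L)
    have e2 := hinv _ hmem ((x, 0) + sB L b : Amb L)
    rw [add_right_comm] at e2
    rw [show ((x, 0) : Amb L) + H.index • ((v, 0) : Amb L) = (x + H.index • v, 0) by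
      simp [Prod.smul_mk]] at e1 e2
    exact decide_eq_decide.mpr (by rw [e1, e2])
  constructor <;> funext b
  · simpa using key (1, 0) b
  · simpa using key (0, 1) b

end Vale.Agent.P043.Gadget
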